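import Vale.Agent.P307.H479.Sec
import Mathlib.SetTheory.Cardinal.Regular

/-! P307 (helper479): the Hanf function, stability and the base case. -/

universe u

open Cardinal Set Function

namespace Vale.Agent.P307.H479

section

variable {G : ℕ → Type u} {X : Type u} [∀ n, Group (G n)]
  (res : ∀ m n : ℕ, (Fin m → Fin n) → G n →* G m)

theorem sub_face {W V : Set X} (h : W ⊆ V) (col : X → ℕ) (j : ℕ) :
    {x ∈ W | col x ≠ j} ⊆ {x ∈ V | col x ≠ j} := fun _ hx => ⟨h hx.1, hx.2⟩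

theorem sub_le {W : Set X} (ρ : X → ℕ) {k m : ℕ} (h : k ≤ m) :
    {x ∈ W | ρ x ≤ k} ⊆ {x ∈ W | ρ x ≤ m} := fun _ hx => ⟨hx.1, hx.2.trans h⟩

/-- Sections of the trivial form over `W` which are trivial on the faces. -/
def AA (W : Set X) (col : X → ℕ) (T : Finset ℕ) (α : Coch G X) : Prop :=
  Sec1 res W α ∧ ∀ j ∈ T, Agree {x ∈ W | col x ≠ j} α 1

variable {res}

theorem AA.pull {Y : Type u} {W : Set X} {V : Set Y} {col : X → ℕ} {col' : Y → ℕ} {T : Finset ℕ}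
    {e : X → Y} (he : InjOn e W) (hV : ∀ x ∈ W, e x ∈ V)
    (hcol : ∀ x ∈ W, ∀ j ∈ T, col' (e x) = j → col x = j) {g : Coch G Y}
    (hg : AA res V col' T g) : AA res W col T (pull e g) := by
  refine ⟨hg.1.pull he hV, fun j hj n a ha => ?_⟩
  refine hg.2 j hj n (e ∘ a) (ha.map (he.mono fun x hx => hx.1) ?_)
  intro x hx
  exact ⟨hV x hx.1, fun h => hx.2 (hcol x hx.1 j hj h)⟩

variable (res)

/-- The data to be extended. -/
abbrev Dat (G : ℕ → Type u) (κ : Cardinal.{u}) : Type u :=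
  Finset ℕ × (κ.out → ℕ) × Set ℕ × Coch G κ.out

/-- The domain of the extension. -/
def exDom (κ χ : Cardinal.{u}) (J : Set ℕ) : Set (κ.out ⊕ (χ.out × ℕ)) :=
  {z | ∀ p, z = Sum.inr p → p.2 ∈ J}

/-- Extendability of the data by `χ` new points of every colour in `J`. -/
def Ext {κ : Cardinal.{u}} (χ : Cardinal.{u}) (d : Dat G κ) : Prop :=
  ∃ β : Coch G (κ.out ⊕ (χ.out × ℕ)),
    AA res (exDom κ χ d.2.2.1) (Sum.elim d.2.1 Prod.snd) d.1 β ∧
    ∀ n (a : Fin n → κ.out), Injective a → β n (Sum.inl ∘ a) = d.2.2.2 n a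

theorem Ext.mono {κ χ χ' : Cardinal.{u}} (h : χ ≤ χ') {d : Dat G κ} (hd : Ext res χ' d) :
    Ext res χ d := by
  obtain ⟨β, hβ, hβ'⟩ := hd
  rw [← mk_out χ, ← mk_out χ'] at h
  obtain ⟨ι⟩ := Cardinal.le_def _ _ |>.1 h
  refine ⟨pull (Sum.map id (Prod.map ι id)) β, hβ.pull ?_ ?_ ?_, ?_⟩
  · refine Injective.injOn ?_
    exact Sum.map_injective.2 ⟨injective_id, ι.injective.prodMap injective_id⟩
  · rintro (z | p) hz q hq
    · simp at hq
    · simp only [Sum.map_inr, Sum.inr.injEq] at hq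
      rw [← hq]
      exact hz p rfl
  · rintro (z | p) _ j _ hj
    · exact hj
    · exact hj
  · intro n a ha
    show β n (Sum.map id (Prod.map ι id) ∘ (Sum.inl ∘ a)) = _
    exact hβ' n a ha

open Classical in
/-- The Hanf function. -/
noncomputable def hanfG (κ : Cardinal.{u}) : Cardinal.{u} :=
  ⨆ d : Dat G κ, if h : ∃ χ, ¬ Ext res χ d then h.choose else 0

theorem hanfG_spec {κ : Cardinal.{u}} {d : Dat G κ} (hd : Ext res (hanfG (G := G) res κ) d)
    (χ : Cardinal.{u}) : Ext res χ d := by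
  classical
  by_contra hcon
  have h : ∃ χ, ¬ Ext res χ d := ⟨χ, hcon⟩
  have h1 : h.choose ≤ hanfG (G := G) res κ := by
    have h2 := le_ciSup (f := fun d : Dat G κ => if h : ∃ χ, ¬ Ext res χ d then h.choose else 0)
      bddAbove_of_small d
    simp only [dif_pos h] at h2
    exact h2
  exact h.choose_spec (hd.mono res h1)

variable {res}

theorem stability {κ : Cardinal.{u}} [Nonempty X] {col : X → ℕ} {T : Finset ℕ} {W₀ W₁ W₂ : Set X}
    (h01 : W₀ ⊆ W₁) (hκ : #W₀ = κ) (J : Set ℕ)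
    (hJ1 : ∀ j ∈ J, hanfG (G := G) res κ ≤ #{x // x ∈ W₁ ∧ x ∉ W₀ ∧ col x = j})
    (hJ2 : ∀ x ∈ W₂, x ∉ W₀ → col x ∈ J) {α : Coch G X} (hα : AA res W₁ col T α) :
    ∃ α', AA res W₂ col T α' ∧ Agree W₀ α' α := by
  classical
  obtain ⟨e₀⟩ : Nonempty (κ.out ≃ W₀) := by
    rw [← Cardinal.eq, mk_out, hκ]
  have hf : ∀ j, ∃ f : (hanfG (G := G) res κ).out → X, j ∈ J → Injective f ∧
      ∀ z, f z ∈ W₁ ∧ f z ∉ W₀ ∧ col (f z) = j := by
    intro j
    by_cases hj : j ∈ J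
    · have h1 := hJ1 j hj
      rw [← mk_out (hanfG (G := G) res κ)] at h1
      obtain ⟨ι⟩ := Cardinal.le_def _ _ |>.1 h1
      exact ⟨fun z => (ι z).1, fun _ => ⟨fun x y h => ι.injective (Subtype.ext h), fun z => (ι z).2⟩⟩
    · exact ⟨fun _ => Classical.arbitrary X, fun h => absurd h hj⟩
  choose f hf using hf
  let d : Dat G κ := (T, fun z => col (e₀ z), J, pull (fun z => (e₀ z : X)) α)
  let e₁ : κ.out ⊕ ((hanfG (G := G) res κ).out × ℕ) → X :=
    Sum.elim (fun z => (e₀ z : X)) (fun p => f p.2 p.1)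
  have hd : Ext res (hanfG (G := G) res κ) d := by
    refine ⟨pull e₁ α, hα.pull ?_ ?_ ?_, ?_⟩
    · rintro (z | p) hz (z' | p') hz' h
      · exact congrArg Sum.inl (e₀.injective (Subtype.ext h))
      · have h1 := (hf p'.2 (hz' p' rfl)).2 p'.1
        have h2 : (e₀ z : X) = f p'.2 p'.1 := h
        rw [← h2] at h1
        exact absurd (e₀ z).2 h1.2.1
      · have h1 := (hf p.2 (hz p rfl)).2 p.1
        have h2 : f p.2 p.1 = (e₀ z' : X) := h
        rw [h2] at h1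
        exact absurd (e₀ z').2 h1.2.1
      · have h1 := (hf p.2 (hz p rfl)).2 p.1
        have h1' := (hf p'.2 (hz' p' rfl)).2 p'.1
        have h2 : f p.2 p.1 = f p'.2 p'.1 := h
        have h3 : p.2 = p'.2 := by rw [← h1.2.2, ← h1'.2.2, h2]
        obtain ⟨x, j⟩ := p
        obtain ⟨x', j'⟩ := p'
        simp only at h3
        subst h3
        have h4 := (hf j (hz _ rfl)).1 h2
        simp only at h4
        rw [h4]
    · rintro (z | p) hz
      · exact h01 (e₀ z).2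
      · exact ((hf p.2 (hz p rfl)).2 p.1).1
    · rintro (z | p) hz j hj h
      · exact h
      · rw [← h]
        exact ((hf p.2 (hz p rfl)).2 p.1).2.2.symm
    · intro n a ha
      rfl
  obtain ⟨β, hβ, hβ'⟩ := hanfG_spec res hd #X
  obtain ⟨ι⟩ : Nonempty (X ≃ (#X).out) := by rw [← Cardinal.eq, mk_out]
  let e₂ : X → κ.out ⊕ ((#X).out × ℕ) := fun x =>
    if h : x ∈ W₀ then Sum.inl (e₀.symm ⟨x, h⟩) else Sum.inr (ι x, col x)
  have he2 : ∀ x (h : x ∈ W₀), e₂ x = Sum.inl (e₀.symm ⟨x, h⟩) := fun x h => dif_pos h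
  have he2' : ∀ x (h : x ∉ W₀), e₂ x = Sum.inr (ι x, col x) := fun x h => dif_neg h
  refine ⟨pull e₂ β, hβ.pull ?_ ?_ ?_, ?_⟩
  · intro x _ y _ h
    by_cases hx : x ∈ W₀ <;> by_cases hy : y ∈ W₀
    · rw [he2 x hx, he2 y hy] at h
      have h1 := e₀.symm.injective (Sum.inl_injective h)
      exact congrArg Subtype.val h1
    · rw [he2 x hx, he2' y hy] at h
      exact absurd h (by simp)
    · rw [he2' x hx, he2 y hy] at h
      exact absurd h (by simp)
    · rw [he2' x hx, he2' y hy] at h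
      have h1 := Sum.inr_injective h
      exact ι.injective (congrArg Prod.fst h1)
  · intro x hx p hp
    by_cases hx0 : x ∈ W₀
    · rw [he2 x hx0] at hp
      exact absurd hp (by simp)
    · rw [he2' x hx0] at hp
      have h1 := Sum.inr_injective hp
      rw [← h1]
      exact hJ2 x hx hx0
  · intro x hx j hj h
    by_cases hx0 : x ∈ W₀
    · rw [he2 x hx0] at h
      have h1 : col (e₀ (e₀.symm ⟨x, hx0⟩)) = j := h
      rw [e₀.apply_symm_apply] at h1
      exact h1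
    · rw [he2' x hx0] at h
      exact h
  · intro n a ha
    let b : Fin n → κ.out := fun i => e₀.symm ⟨a i, ha.2 i⟩
    have hb : Injective b := by
      intro i j hij
      have h1 := e₀.symm.injective hij
      exact ha.1 (congrArg Subtype.val h1)
    have h1 : e₂ ∘ a = Sum.inl ∘ b := by
      funext i
      exact he2 _ (ha.2 i)
    show β n (e₂ ∘ a) = α n a
    rw [h1, hβ' n b hb]
    show α n (fun i => (e₀ (e₀.symm ⟨a i, ha.2 i⟩) : X)) = α n a
    congr 1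
    funext i
    rw [e₀.apply_symm_apply]

/-- Extensions of `s` from the faces. -/
def EE (res : ∀ m n : ℕ, (Fin m → Fin n) → G n →* G m) (c : Tw G X) (W : Set X) (col : X → ℕ)
    (T : Finset ℕ) (s t : Coch G X) : Prop :=
  Sec res c W t ∧ ∀ j ∈ T, Agree {x ∈ W | col x ≠ j} t s

theorem EE.mono {c : Tw G X} {W V : Set X} (h : W ⊆ V) {col : X → ℕ} {T : Finset ℕ}
    {s t : Coch G X} (ht : EE res c V col T s t) : EE res c W col T s t :=
  ⟨ht.1.mono h, fun j hj => (ht.2 j hj).mono (sub_face h col j)⟩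

theorem ml_step {c : Tw G X} {col : X → ℕ} {T : Finset ℕ} {W₀ W₁ W₂ : Set X} (h12 : W₁ ⊆ W₂)
    (hst : ∀ α : Coch G X, AA res W₁ col T α →
      ∃ α', AA res W₂ col T α' ∧ Agree W₀ α' α)
    {s t v : Coch G X} (ht : EE res c W₁ col T s t) (hv : EE res c W₂ col T s v) :
    ∃ t', EE res c W₂ col T s t' ∧ Agree W₀ t' t := by
  have hα : AA res W₁ col T (v⁻¹ * t) := by
    refine ⟨(hv.1.mono h12).sub ht.1, fun j hj n a ha => ?_⟩
    show (v n a)⁻¹ * t n a = 1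
    rw [ht.2 j hj n a ha, hv.2 j hj n a (ha.mono (sub_face h12 col j)), inv_mul_cancel]
  obtain ⟨α', hα', hα''⟩ := hst _ hα
  refine ⟨v * α', ⟨hv.1.mul hα'.1, fun j hj n a ha => ?_⟩, fun n a ha => ?_⟩
  · show v n a * α' n a = s n a
    rw [hα'.2 j hj n a ha, hv.2 j hj n a ha]
    show s n a * 1 = s n a
    rw [mul_one]
  · show v n a * α' n a = t n a
    rw [hα'' n a ha]
    show v n a * ((v n a)⁻¹ * t n a) = t n a
    rw [mul_inv_cancel_left]

theorem limit_lemma {c : Tw G X} {col : X → ℕ} {T : Finset ℕ} {W : Set X} (ρ : X → ℕ)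
    {s : Coch G X} (t : ℕ → Coch G X) (ht : ∀ m, EE res c {x ∈ W | ρ x ≤ m} col T s (t m))
    (hag : ∀ m, Agree {x ∈ W | ρ x ≤ m} (t (m + 1)) (t m)) : ∃ t', EE res c W col T s t' := by
  have h1 : ∀ k m, k ≤ m → Agree {x ∈ W | ρ x ≤ k} (t m) (t k) := by
    intro k m hkm
    induction m, hkm using Nat.le_induction with
    | base => exact Agree.refl _ _
    | succ m hkm ih =>
      exact ((hag m).mono (sub_le ρ hkm)).trans ih
  let N : ∀ n, (Fin n → X) → ℕ := fun n a => Finset.univ.sup fun i => ρ (a i)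
  have hN : ∀ n (a : Fin n → X) i, ρ (a i) ≤ N n a := fun n a i =>
    Finset.le_sup (f := fun i => ρ (a i)) (Finset.mem_univ i)
  have hTup : ∀ n (a : Fin n → X) V, V ⊆ W → Tup V a → Tup {x ∈ V | ρ x ≤ N n a} a :=
    fun n a V _ ha => ⟨ha.1, fun i => ⟨ha.2 i, hN n a i⟩⟩
  refine ⟨fun n a => t (N n a) n a, ?_, ?_⟩
  · intro n a ha m f hf
    show t (N m (a ∘ f)) m (a ∘ f) = _
    have h2 : N m (a ∘ f) ≤ N n a := Finset.sup_le fun i _ => hN n a (f i)
    have h3 := hTup n a W subset_rfl ha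
    rw [← h1 _ _ h2 m (a ∘ f) (hTup m (a ∘ f) W subset_rfl (ha.comp hf))]
    exact (ht (N n a)).1 n a h3 m f hf
  · intro j hj n a ha
    refine (ht (N n a)).2 j hj n a ⟨ha.1, fun i => ⟨⟨(ha.2 i).1, hN n a i⟩, (ha.2 i).2⟩⟩

end

section card

theorem mk_le_of_fibers {A : Type u} (f : A → ℕ × ℕ) {κ : Cardinal.{u}} (hκ : ℵ₀ ≤ κ)
    (h : ∀ i, #{x // f x = i} ≤ κ) : #A ≤ κ := by
  rw [← mk_congr (Equiv.sigmaFiberEquiv f), mk_sigma]
  refine (sum_le_lift_mk_mul_iSup _).trans ?_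
  have h1 : (⨆ i, #{x // f x = i}) ≤ κ := ciSup_le' h
  have h2 : Cardinal.lift.{u} #(ℕ × ℕ) = ℵ₀ := by simp
  rw [h2]
  exact (mul_le_mul' hκ h1).trans (mul_eq_self hκ).le

theorem exists_rank {X : Type u} {κ : ℕ → Cardinal.{u}} (hκ0 : ∀ m, ℵ₀ ≤ κ m) (Y : Set X)
    (hY : #Y = ⨆ m, κ m) : ∃ ρ : X → ℕ, ∀ m, #{x // x ∈ Y ∧ ρ x = m} = κ m := by
  classical
  have hb : BddAbove (range κ) := bddAbove_of_small
  have h0 : ℵ₀ ≤ ⨆ m, κ m := (hκ0 0).trans (le_ciSup hb 0)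
  have h1 : #(Σ m, (κ m).out) = ⨆ m, κ m := by
    rw [mk_sigma]
    simp only [mk_out]
    apply le_antisymm
    · refine (sum_le_lift_mk_mul_iSup _).trans ?_
      have h2 : Cardinal.lift.{u} #ℕ = ℵ₀ := by simp
      rw [h2]
      exact (mul_le_mul' h0 le_rfl).trans (mul_eq_self h0).le
    · exact ciSup_le' fun m => le_sum κ m
  obtain ⟨e⟩ : Nonempty (Y ≃ Σ m, (κ m).out) := by
    rw [← Cardinal.eq, h1, hY]
  refine ⟨fun x => if h : x ∈ Y then (e ⟨x, h⟩).1 else 0, fun m => ?_⟩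
  have h2 : ∀ x (h : x ∈ Y), (if h : x ∈ Y then (e ⟨x, h⟩).1 else 0) = (e ⟨x, h⟩).1 :=
    fun x h => dif_pos h
  have h3 : {x // x ∈ Y ∧ (if h : x ∈ Y then (e ⟨x, h⟩).1 else 0) = m} ≃
      {y : Y // (e y).1 = m} :=
    { toFun := fun x => ⟨⟨x.1, x.2.1⟩, by rw [← h2 x.1 x.2.1]; exact x.2.2⟩
      invFun := fun y => ⟨y.1.1, y.1.2, by rw [h2 y.1.1 y.1.2]; exact y.2⟩
      left_inv := fun x => rfl
      right_inv := fun y => rfl }
  rw [mk_congr h3]
  have h4 : {y : Y // (e y).1 = m} ≃ {z : Σ m, (κ m).out // z.1 = m} :=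
    e.subtypeEquiv fun y => Iff.rfl
  have h5 : (κ m).out ≃ {z : Σ m, (κ m).out // z.1 = m} :=
    Equiv.ofBijective (fun x => ⟨⟨m, x⟩, rfl⟩) ⟨fun x y h => by simpa using h, by
      rintro ⟨⟨k, x⟩, rfl⟩
      exact ⟨x, rfl⟩⟩
  rw [mk_congr h4, ← mk_congr h5]
  exact mk_out (κ m)

end card

end Vale.Agent.P307.H479
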