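import Vale.Agent.P307.H479.Base

/-! P307 (helper479): the base case. -/

universe u

open Cardinal Set Function

namespace Vale.Agent.P307.H479

theorem exists_map {X : Type u} {A B : Set X} (h : #A ≤ #B) :
    ∃ r : X → X, InjOn r A ∧ ∀ x ∈ A, r x ∈ B := by
  classical
  obtain ⟨ι⟩ := Cardinal.le_def _ _ |>.1 h
  have h1 : ∀ x (hx : x ∈ A), (if hx : x ∈ A then (ι ⟨x, hx⟩ : X) else x) = ι ⟨x, hx⟩ :=
    fun x hx => dif_pos hx
  refine ⟨fun x => if hx : x ∈ A then (ι ⟨x, hx⟩ : X) else x, fun x hx y hy hxy => ?_,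
    fun x hx => ?_⟩
  · simp only [h1 x hx, h1 y hy] at hxy
    exact congrArg Subtype.val (ι.injective (Subtype.ext hxy))
  · simp only [h1 x hx]
    exact (ι ⟨x, hx⟩).2

section

variable {G : ℕ → Type u} {X : Type u} [∀ n, Group (G n)]
  {res : ∀ m n : ℕ, (Fin m → Fin n) → G n →* G m}

theorem base_norm {κ : ℕ → Cardinal.{u}} (hκ0 : ∀ m, ℵ₀ ≤ κ m) (hκ : StrictMono κ)
    (hh : ∀ m, hanfG (G := G) res (κ m) ≤ κ (m + 1)) {c : Tw G X}
    (H : ∀ m (V : Set X), #V = κ m → ∃ u, Sec res c V u) {W : Set X} {col : X → ℕ} {T : Finset ℕ}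
    (h0 : 0 ∉ T) (hcol : ∀ x ∈ W, col x = 0 ∨ col x ∈ T)
    (hB : #{x // x ∈ W ∧ col x = 0} = ⨆ m, κ m)
    (hsmall : ∀ j ∈ T, #{x // x ∈ W ∧ col x = j} = ⨆ m, κ m ∨
      #{x // x ∈ W ∧ col x = j} ≤ κ 0)
    {s : Coch G X} (hs : ∀ j ∈ T, Sec res c {x ∈ W | col x ≠ j} s) :
    ∃ t, EE res c W col T s t := by
  classical
  -- the rank function
  have h1 : ∀ j, ∃ ρ : X → ℕ, (#{x // x ∈ W ∧ col x = j} = ⨆ m, κ m →
      ∀ m, #{x // x ∈ {x | x ∈ W ∧ col x = j} ∧ ρ x = m} = κ m) ∧
      (#{x // x ∈ W ∧ col x = j} ≠ ⨆ m, κ m → ∀ x, ρ x = 0) := by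
    intro j
    by_cases hj : #{x // x ∈ W ∧ col x = j} = ⨆ m, κ m
    · obtain ⟨ρ, hρ⟩ := exists_rank hκ0 {x | x ∈ W ∧ col x = j} hj
      exact ⟨ρ, fun _ => hρ, fun h => absurd hj h⟩
    · exact ⟨fun _ => 0, fun h => absurd h hj, fun _ _ => rfl⟩
  choose ρ' hρ1 hρ2 using h1
  let ρ : X → ℕ := fun x => ρ' (col x) x
  have hρJ : ∀ j, #{x // x ∈ W ∧ col x = j} = ⨆ m, κ m →
      ∀ m, #{x // x ∈ W ∧ col x = j ∧ ρ x = m} = κ m := by
    intro j hj m
    rw [← hρ1 j hj m]
    refine mk_congr (Equiv.subtypeEquivRight fun x => ?_)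
    constructor
    · rintro ⟨h2, h3, h4⟩
      refine ⟨⟨h2, h3⟩, ?_⟩
      rw [← h4, ← h3]
    · rintro ⟨⟨h2, h3⟩, h4⟩
      refine ⟨h2, h3, ?_⟩
      rw [← h4, ← h3]
  let Wm : ℕ → Set X := fun m => {x ∈ W | ρ x ≤ m}
  have hWmono : ∀ {k m}, k ≤ m → Wm k ⊆ Wm m := fun h => sub_le ρ h
  have hWcard : ∀ m, #(Wm m) = κ m := by
    intro m
    apply le_antisymm
    · refine mk_le_of_fibers (fun x : Wm m => (col x.1, ρ x.1)) (hκ0 m) ?_
      rintro ⟨j, i⟩
      rcases lt_or_ge m i with him | him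
      · have : IsEmpty {x : Wm m // (col x.1, ρ x.1) = (j, i)} := by
          refine ⟨fun x => ?_⟩
          have h3 := x.1.2.2
          have h4 : ρ x.1.1 = i := congrArg Prod.snd x.2
          omega
        rw [mk_eq_zero]
        exact zero_le
      · by_cases hj : #{x // x ∈ W ∧ col x = j} = ⨆ m, κ m
        · refine le_trans ?_ (hκ.monotone him)
          rw [← hρJ j hj i]
          refine mk_le_of_injective (f := fun x => (⟨x.1.1, x.1.2.1, congrArg Prod.fst x.2,
            congrArg Prod.snd x.2⟩ : {x // x ∈ W ∧ col x = j ∧ ρ x = i})) ?_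
          intro x y h
          exact Subtype.ext (Subtype.ext (Subtype.mk.inj h))
        · by_cases hjT : j ∈ T
          · refine le_trans ?_ (hκ.monotone (Nat.zero_le m))
            refine le_trans ?_ ((hsmall j hjT).resolve_left hj)
            refine mk_le_of_injective (f := fun x => (⟨x.1.1, x.1.2.1, congrArg Prod.fst x.2⟩ :
              {x // x ∈ W ∧ col x = j})) ?_
            intro x y h
            exact Subtype.ext (Subtype.ext (Subtype.mk.inj h))
          · have : IsEmpty {x : Wm m // (col x.1, ρ x.1) = (j, i)} := by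
              refine ⟨fun x => ?_⟩
              have h4 : col x.1.1 = j := congrArg Prod.fst x.2
              rcases hcol x.1.1 x.1.2.1 with h5 | h5
              · rw [h5] at h4
                rw [← h4] at hj
                exact hj hB
              · rw [h4] at h5
                exact hjT h5
            rw [mk_eq_zero]
            exact zero_le
    · rw [← hρJ 0 hB m]
      refine mk_le_of_injective (f := fun x => (⟨x.1, x.2.1, x.2.2.2.le⟩ : Wm m)) ?_
      intro x y h
      exact Subtype.ext (congrArg (fun z : Wm m => z.1) h)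
  have hne : Nonempty X := by
    have h2 : #(Wm 0) ≠ 0 := by
      rw [hWcard]
      exact (aleph0_pos.trans_le (hκ0 0)).ne'
    rw [mk_ne_zero_iff] at h2
    exact ⟨h2.some.1⟩
  -- nonempty stages
  have hE : ∀ m, ∃ t, EE res c (Wm m) col T s t := by
    intro m
    obtain ⟨u, hu⟩ := H (m + T.card) (Wm (m + T.card)) (hWcard _)
    obtain ⟨δ, hδ1, hδ2⟩ := room_aux (res := res) col T {x ∈ Wm m | col x ≠ 0} T subset_rfl
      (fun k => {x ∈ Wm (m + k) | col x = 0})
      (fun k x hx => ⟨hWmono (by omega) hx.1, hx.2⟩)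
      (fun k => Set.disjoint_left.2 fun x hx hx' => hx'.2 hx.2) (by
        intro k i hi
        have h2 : #{x ∈ {x ∈ Wm m | col x ≠ 0} | col x = i} ≤
            #{x // x ∈ W ∧ col x = 0 ∧ ρ x = m + k + 1} := by
          rw [hρJ 0 hB]
          refine le_trans ?_ (hκ.monotone (show m ≤ m + k + 1 by omega))
          rw [← hWcard m]
          exact mk_le_mk_of_subset fun x hx => hx.1.1
        obtain ⟨r, hr1, hr2⟩ := exists_map (B := {x | x ∈ W ∧ col x = 0 ∧ ρ x = m + k + 1}) h2
        refine ⟨r, hr1, fun x hx hxi => ?_⟩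
        have h3 := hr2 x ⟨hx, hxi⟩
        refine ⟨⟨⟨h3.1, ?_⟩, h3.2.1⟩, ?_⟩
        · have := h3.2.2
          show ρ (r x) ≤ m + (k + 1)
          omega
        · intro h4
          have h5 : ρ (r x) ≤ m + k := h4.1.2
          have := h3.2.2
          omega) (u⁻¹ * s) (by
        intro j hj
        have hj0 : j ≠ 0 := fun h => h0 (h ▸ hj)
        have h2 : {x ∈ Wm (m + T.card) | col x = 0} ∪ {x ∈ {x ∈ Wm m | col x ≠ 0} | col x ≠ j} ⊆
            {x ∈ Wm (m + T.card) | col x ≠ j} := by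
          rintro x (hx | hx)
          · refine ⟨hx.1, fun h => hj0 ?_⟩
            rw [← h]
            exact hx.2
          · exact ⟨hWmono (by omega) hx.1.1, hx.2⟩
        refine (hu.mono (h2.trans fun x hx => hx.1)).sub ((hs j hj).mono (h2.trans ?_))
        exact fun x hx => ⟨hx.1.1, hx.2⟩)
      (fun j hj hj' => absurd hj hj')
    refine ⟨u * δ, (hu.mono (hWmono (by omega))).mul (hδ1.mono ?_), fun j hj n a ha => ?_⟩
    · intro x hx
      by_cases h2 : col x = 0
      · exact Or.inl ⟨hx, h2⟩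
      · exact Or.inr ⟨hx, h2⟩
    · show u n a * δ n a = s n a
      rw [hδ2 j hj n a (ha.mono ?_)]
      · show u n a * ((u n a)⁻¹ * s n a) = s n a
        rw [mul_inv_cancel_left]
      · intro x hx
        by_cases h2 : col x = 0
        · exact Or.inl ⟨hx.1, h2⟩
        · exact Or.inr ⟨⟨hx.1, h2⟩, hx.2⟩
  -- the Mittag-Leffler step
  have step : ∀ m (t : {t // EE res c (Wm (m + 1)) col T s t}),
      ∃ t' : {t // EE res c (Wm (m + 1 + 1)) col T s t}, Agree (Wm m) t'.1 t.1 := by
    intro m t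
    obtain ⟨v, hv⟩ := hE (m + 1 + 1)
    obtain ⟨t', ht', ht''⟩ := ml_step (W₀ := Wm m) (hWmono (by omega : m + 1 ≤ m + 1 + 1))
      (fun α hα => stability (hWmono (by omega : m ≤ m + 1)) (hWcard m)
        {j | #{x // x ∈ W ∧ col x = j} = ⨆ m, κ m} (by
          intro j hj
          refine (hh m).trans ?_
          rw [← hρJ j hj (m + 1)]
          refine mk_le_of_injective (f := fun x => ⟨x.1, ⟨x.2.1, x.2.2.2.le⟩, fun h2 => ?_,
            x.2.2.1⟩) ?_
          · have h3 : ρ x.1 ≤ m := h2.2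
            have := x.2.2.2
            omega
          · intro x y h
            exact Subtype.ext (Subtype.mk.inj h)) (by
          intro x hx hx'
          by_contra hcon
          have h3 : ρ x = 0 := hρ2 _ hcon x
          exact hx' ⟨hx.1, by omega⟩) hα) t.2 hv
    exact ⟨⟨t', ht'⟩, ht''⟩
  choose nxt hnxt using step
  obtain ⟨t₀, ht₀⟩ := hE 1
  let tt : ∀ m, {t // EE res c (Wm (m + 1)) col T s t} := fun m =>
    Nat.rec ⟨t₀, ht₀⟩ (fun m t => nxt m t) m
  exact limit_lemma ρ (fun m => (tt m).1) (fun m => (tt m).2.mono (hWmono (by omega)))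
    (fun m => hnxt m (tt m))

/-- The base case. -/
theorem base_case {κ : ℕ → Cardinal.{u}} (hκ0 : ∀ m, ℵ₀ ≤ κ m) (hκ : StrictMono κ)
    (hh : ∀ m, hanfG (G := G) res (κ m) ≤ κ (m + 1)) {c : Tw G X}
    (H : ∀ m (V : Set X), #V = κ m → ∃ u, Sec res c V u) {W : Set X} {col : X → ℕ} {T : Finset ℕ}
    (hW : #W = ⨆ m, κ m) (hB : ⨆ m, κ m ≤ #{x // x ∈ W ∧ col x ∉ T})
    {s : Coch G X} (hs : ∀ j ∈ T, Sec res c {x ∈ W | col x ≠ j} s) :
    ∃ t, EE res c W col T s t := by
  classical
  let col' : X → ℕ := fun x => if col x ∈ T then col x + 1 else 0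
  let T' : Finset ℕ := T.image fun j => j + 1
  have hc1 : ∀ x, col x ∈ T → col' x = col x + 1 := fun x h => if_pos h
  have hc2 : ∀ x, col x ∉ T → col' x = 0 := fun x h => if_neg h
  have hc3 : ∀ x, ∀ j ∈ T, (col' x = j + 1 ↔ col x = j) := by
    intro x j hj
    by_cases h : col x ∈ T
    · rw [hc1 x h]
      omega
    · rw [hc2 x h]
      constructor
      · intro h'; omega
      · intro h'; rw [h'] at h; exact absurd hj h
  have hc4 : ∀ x, col' x = 0 ↔ col x ∉ T := by
    intro x
    by_cases h : col x ∈ T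
    · rw [hc1 x h]
      constructor
      · intro h'; omega
      · intro h'; exact absurd h h'
    · exact ⟨fun _ => h, fun _ => hc2 x h⟩
  have hface : ∀ j ∈ T, {x ∈ W | col' x ≠ j + 1} = {x ∈ W | col x ≠ j} := by
    intro j hj
    ext x
    show x ∈ W ∧ ¬ col' x = j + 1 ↔ x ∈ W ∧ ¬ col x = j
    rw [hc3 x j hj]
  -- shift
  have hbd : BddAbove (range κ) := bddAbove_of_small
  have hm : ∀ j, ∃ m, #{x // x ∈ W ∧ col' x = j} = ⨆ m, κ m ∨
      #{x // x ∈ W ∧ col' x = j} ≤ κ m := by
    intro j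
    rcases lt_or_eq_of_le (show #{x // x ∈ W ∧ col' x = j} ≤ ⨆ m, κ m by
      rw [← hW]; exact mk_le_mk_of_subset fun x hx => hx.1) with h | h
    · obtain ⟨m, hm⟩ := exists_lt_of_lt_ciSup h
      exact ⟨m, Or.inr hm.le⟩
    · exact ⟨0, Or.inl h⟩
  choose mm hmm using hm
  let m₀ : ℕ := T'.sup mm
  have hsup : ⨆ m, κ (m + m₀) = ⨆ m, κ m := by
    apply le_antisymm
    · exact ciSup_le' fun m => le_ciSup hbd _
    · refine ciSup_le' fun m => ?_
      refine (hκ.monotone (Nat.le_add_right m m₀)).trans ?_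
      exact le_ciSup (f := fun m => κ (m + m₀)) bddAbove_of_small m
  obtain ⟨t, ht1, ht2⟩ := base_norm (κ := fun m => κ (m + m₀)) (fun m => hκ0 _)
    (fun a b hab => hκ (by omega)) (fun m => by
      have := hh (m + m₀)
      rw [show m + 1 + m₀ = m + m₀ + 1 by omega]
      exact this) (fun m V hV => H _ V hV) (W := W) (col := col') (T := T')
      (by simp [T']) (by
        intro x _
        by_cases h : col x ∈ T
        · right
          rw [hc1 x h]
          exact Finset.mem_image_of_mem _ h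
        · left
          exact hc2 x h) (by
        rw [hsup]
        apply le_antisymm
        · rw [← hW]
          exact mk_le_mk_of_subset fun x hx => hx.1
        · refine hB.trans_eq ?_
          refine mk_congr (Equiv.subtypeEquivRight fun x => ?_)
          rw [hc4]) (by
        intro j hj
        rw [hsup]
        refine (hmm j).imp id fun h => h.trans ?_
        refine hκ.monotone ?_
        rw [Nat.zero_add]
        exact Finset.le_sup hj) (s := s) (by
        intro j hj
        obtain ⟨i, hi, rfl⟩ := Finset.mem_image.1 hj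
        rw [hface i hi]
        exact hs i hi)
  refine ⟨t, ht1, fun j hj => ?_⟩
  have h2 := ht2 (j + 1) (Finset.mem_image_of_mem _ hj)
  rw [hface j hj] at h2
  exact h2

end

end Vale.Agent.P307.H479
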