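import Vale.Agent.P307.H479.Chart
import Vale.Agent.P307.H582.Hanf

/-! P307 (helper479): eventual categoricity of locally standard classes. -/

universe u

open FirstOrder Cardinal Function

namespace Vale.Agent.P307.H479

variable {L : Language.{u, u}} {K : AEC L} {D : LocData L} {M N : Type u} [L.Structure M]
  [L.Structure N]

/-- every element lies in a chart -/
theorem covered (h : D.IsGeometry K) (hM : K.mem M) (hMc : HasCharts D K M) (z : M) : ∃ (n : ℕ) (a : Fin n → D.P M)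
    (φ : D.F n ↪[L] M), Injective a ∧ D.IsChart K (fun i => (a i : M)) φ ∧ z ∈ Set.range φ := by
  classical
  let V : Finset (D.P M) → Set M := fun s => Subtype.val '' (s : Set (D.P M))
  have hVP : ∀ s, V s ⊆ D.P M := by
    rintro s _ ⟨x, -, rfl⟩
    exact x.2
  have h1 : ∀ s, ∃ S : L.Substructure M, K.le S ∧ (S : Set M) ∩ D.P M = V s := fun s =>
    (h.sub hM (V s) (hVP s)).exists
  choose S hS using h1
  have hSP : ∀ s x, x ∈ V s → x ∈ S s := by
    intro s x hx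
    rw [← (hS s).2] at hx
    exact hx.1
  have hmono : Monotone S := by
    intro s t hst
    have hVst : V s ⊆ V t := Set.image_mono hst
    obtain ⟨S', hS', hS'2⟩ := (h.sub (K.mem_of_le _ (hS t).1).1 {x : S t | (x : M) ∈ V s} (by
      intro x hx
      rw [h.P_le _ (hS t).1]
      exact hVP s hx)).exists
    have h2 : S s = S'.map (S t).subtype.toHom := by
      refine (h.sub hM (V s) (hVP s)).unique (hS s) ⟨K.le_trans _ _ hS' (hS t).1, ?_⟩
      ext x
      constructor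
      · rintro ⟨⟨y, hy, rfl⟩, hx⟩
        have h3 : y ∈ (S' : Set (S t)) ∩ D.P (S t) := ⟨hy, (h.P_le _ (hS t).1 y).2 hx⟩
        rw [hS'2] at h3
        exact h3
      · intro hx
        have h3 : (⟨x, hSP t x (hVst hx)⟩ : S t) ∈ {x : S t | (x : M) ∈ V s} := hx
        rw [← hS'2] at h3
        exact ⟨⟨_, h3.1, rfl⟩, hVP s hx⟩
    rw [h2]
    rintro x ⟨y, -, rfl⟩
    exact y.2
  have hle := AEC.le_iSup_finset S hmono fun s => (hS s).1
  have htop : (⨆ s, S s) = ⊤ := by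
    refine (h.sub hM (D.P M) subset_rfl).unique ⟨hle, ?_⟩ ⟨K.le_refl hM, ?_⟩
    · ext x
      refine ⟨fun hx => hx.2, fun hx => ⟨?_, hx⟩⟩
      refine (le_iSup S {⟨x, hx⟩}) (hSP _ x ?_)
      exact ⟨⟨x, hx⟩, by simp, rfl⟩
    · ext x
      exact ⟨fun hx => hx.2, fun hx => ⟨trivial, hx⟩⟩
  have hz : z ∈ ⨆ s, S s := by
    rw [htop]
    trivial
  rw [Language.Substructure.mem_iSup_of_directed (directed_of_isDirected_le hmono)] at hz
  obtain ⟨s, hs⟩ := hz
  let a : Fin s.card → D.P M := fun i => (s.equivFin.symm i).1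
  have ha : Injective a := fun i j hij => s.equivFin.symm.injective (Subtype.ext hij)
  obtain ⟨φ, hφ⟩ := hMc s.card (fun i => (a i : M)) (fun i j hij => ha (Subtype.ext hij))
    (fun i => (a i).2)
  refine ⟨s.card, a, φ, ha, hφ, ?_⟩
  have h2 : Set.range (fun i => (a i : M)) = V s := by
    ext x
    constructor
    · rintro ⟨i, rfl⟩
      exact ⟨a i, (s.equivFin.symm i).2, rfl⟩
    · rintro ⟨y, hy, rfl⟩
      refine ⟨s.equivFin ⟨y, hy⟩, ?_⟩
      show ((s.equivFin.symm (s.equivFin ⟨y, hy⟩)).1 : M) = y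
      rw [Equiv.symm_apply_apply]
  have h3 : φ.toHom.range = S s := by
    refine (h.sub hM (V s) (hVP s)).unique ⟨hφ.1, ?_⟩ (hS s)
    rw [coe_range', hφ.2.2, h2]
  rw [← coe_range', h3]
  exact hs

theorem mk_mem_le (h : D.IsGeometry K) {ℓ : Cardinal.{u}} (hℓ : K.IsLS ℓ) (hM : K.mem M) :
    #M ≤ max #(D.P M) ℓ := by
  obtain ⟨S, hS1, hS2, hS3⟩ := hℓ.2.2 M hM (D.P M)
  have h1 : S = ⊤ := by
    refine (h.sub hM (D.P M) subset_rfl).unique ⟨hS1, ?_⟩ ⟨K.le_refl hM, ?_⟩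
    · ext x
      exact ⟨fun hx => hx.2, fun hx => ⟨hS2 hx, hx⟩⟩
    · ext x
      exact ⟨fun hx => hx.2, fun hx => ⟨trivial, hx⟩⟩
  have h2 : #M = #S := by
    rw [h1]
    exact (mk_congr Language.Substructure.topEquiv.toEquiv).symm
  rw [h2]
  exact hS3.trans ((add_le_max _ _).trans (max_le le_rfl (hℓ.1.trans (le_max_right _ _))))

theorem mk_P (h : D.IsGeometry K) {ℓ : Cardinal.{u}} (hℓ : K.IsLS ℓ) (hM : K.mem M)
    (hlt : ℓ < #M) : #(D.P M) = #M := by
  apply le_antisymm (mk_set_le _)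
  rcases le_max_iff.1 (mk_mem_le h hℓ hM) with h1 | h1
  · exact h1
  · exact absurd hlt (not_lt.2 h1)

theorem mk_mem (h : D.IsGeometry K) {ℓ : Cardinal.{u}} (hℓ : K.IsLS ℓ) (hM : K.mem M)
    (hle : ℓ ≤ #(D.P M)) : #M = #(D.P M) := by
  apply le_antisymm _ (mk_set_le _)
  refine (mk_mem_le h hℓ hM).trans ?_
  exact max_le le_rfl hle

/-- categoricity gives coherent families of charts -/
theorem coh_of_cat (h : D.IsGeometry K) {ℓ κ : Cardinal.{u}} (hℓ : K.IsLS ℓ) (hM : K.mem M)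
    (hκ : ℓ < κ) (hcat : K.CategoricalIn κ) (V : Set (D.P M)) (hV : #V = κ) : Coh D K M V := by
  have hVP : Subtype.val '' V ⊆ D.P M := by
    rintro _ ⟨x, -, rfl⟩
    exact x.2
  obtain ⟨S, hS, hSV⟩ := (h.sub hM (Subtype.val '' V) hVP).exists
  have hS1 : ∀ v : D.P M, v ∈ V → (v : M) ∈ S := by
    intro v hv
    have h1 : (v : M) ∈ Subtype.val '' V := ⟨v, hv, rfl⟩
    rw [← hSV] at h1
    exact h1.1
  have hSm : K.mem S := (K.mem_of_le _ hS).1
  have hPS : #(D.P S) = κ := by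
    rw [← hV]
    refine mk_congr ?_
    refine Equiv.ofBijective (fun x : D.P S => (⟨⟨(x.1 : M), (h.P_le S hS x.1).1 x.2⟩, ?_⟩ : V)) ?_
    · have h1 : (x.1 : M) ∈ (S : Set M) ∩ D.P M := ⟨x.1.2, (h.P_le S hS x.1).1 x.2⟩
      rw [hSV] at h1
      obtain ⟨v, hv, hv2⟩ := h1
      have h2 : (⟨(x.1 : M), (h.P_le S hS x.1).1 x.2⟩ : D.P M) = v := Subtype.ext hv2.symm
      rw [h2]
      exact hv
    · constructor
      · intro x y hxy
        have h1 := congrArg (fun z : V => ((z : D.P M) : M)) hxy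
        exact Subtype.ext (Subtype.ext h1)
      · intro v
        refine ⟨⟨⟨(v.1 : M), hS1 v.1 v.2⟩, (h.P_le S hS _).2 v.1.2⟩, ?_⟩
        apply Subtype.ext
        apply Subtype.ext
        rfl
  have hSκ : #S = κ := by
    rw [mk_mem h hℓ hSm (by rw [hPS]; exact hκ.le), hPS]
  obtain ⟨N, _, p, φ, hN, hp, hpP, hφ, hc⟩ := std h κ.out
  have hPN : #(D.P N) = κ := by
    rw [← hpP, mk_range_eq p hp, mk_out]
  have hNκ : #N = κ := by
    rw [mk_mem h hℓ hN (by rw [hPN]; exact hκ.le), hPN]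
  obtain ⟨j⟩ := hcat.2 N S hN hSm hNκ hSκ
  have h1 : ∀ v : D.P M, v ∈ V → ∃ b : κ.out, ((j (p b) : S) : M) = v := by
    intro v hv
    have h2 : j.symm ⟨(v : M), hS1 v hv⟩ ∈ D.P N := by
      rw [h.P_iso j.symm hSm, h.P_le S hS]
      exact v.2
    rw [← hpP] at h2
    obtain ⟨b, hb⟩ := h2
    refine ⟨b, ?_⟩
    rw [hb, Language.Equiv.apply_symm_apply]
  choose β hβ using h1
  have hβinj : ∀ n (a : Fin n → D.P M) (ha : Tup V a), Injective fun i => β (a i) (ha.2 i) := by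
    intro n a ha i k hik
    apply ha.1
    apply Subtype.ext
    rw [← hβ (a i) (ha.2 i), ← hβ (a k) (ha.2 k)]
    have h3 : β (a i) (ha.2 i) = β (a k) (ha.2 k) := hik
    rw [h3]
  have hj : K.Emb (S.subtype.comp j.toEmbedding) :=
    AEC.Emb.comp (AEC.emb_subtype.2 hS) (AEC.Emb.of_equiv j hN)
  refine ⟨fun n a ha => (S.subtype.comp j.toEmbedding).comp
    (φ n ⟨fun i => β (a i) (ha.2 i), hβinj n a ha⟩), fun n a ha => ?_, fun n a ha m f hf => ?_⟩
  · have h3 := LocData.IsChart.comp h hj (hφ n ⟨fun i => β (a i) (ha.2 i), hβinj n a ha⟩)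
    convert h3 using 1
    funext i
    exact (hβ (a i) (ha.2 i)).symm
  · have h4 := hc m n ⟨f, hf⟩ ⟨fun i => β (a i) (ha.2 i), hβinj n a ha⟩
    apply Language.Embedding.ext
    intro z
    have h5 := DFunLike.congr_fun h4 z
    exact congrArg (fun x => ((j x : S) : M)) h5

theorem hasCharts_of_cat (h : D.IsGeometry K) {ℓ κ : Cardinal.{u}} (hℓ : K.IsLS ℓ)
    (hM : K.mem M) (hκ : ℓ < κ) (hcat : K.CategoricalIn κ) (hMκ : κ ≤ #(D.P M)) :
    HasCharts D K M := by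
  classical
  intro n a ha hP
  have hκ0 : ℵ₀ ≤ κ := hℓ.1.trans hκ.le
  obtain ⟨V₀, -, hV₀⟩ := (le_mk_iff_exists_subset (c := κ) (s := (Set.univ : Set (D.P M)))).1
    (by rw [mk_univ]; exact hMκ)
  let b : Fin n → D.P M := fun i => ⟨a i, hP i⟩
  have hV : #(V₀ ∪ Set.range b : Set (D.P M)) = κ := by
    apply le_antisymm
    · refine (mk_union_le _ _).trans ?_
      rw [hV₀]
      have h3 : #(Set.range b) ≤ κ := (lt_aleph0_of_finite _).le.trans hκ0
      exact (add_le_add_right h3 κ).trans (add_eq_self hκ0).le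
    · rw [← hV₀]
      exact mk_le_mk_of_subset Set.subset_union_left
  obtain ⟨ψ, hψ, -⟩ := coh_of_cat h hℓ hM hκ hcat _ hV
  exact ⟨_, hψ n b ⟨fun i j hij => ha (Subtype.mk.inj hij), fun i => Or.inr ⟨i, rfl⟩⟩⟩

theorem tup_univ {A : Type u} {n : ℕ} {a : Fin n → A} (ha : Injective a) : Tup Set.univ a :=
  ⟨ha, fun _ => Set.mem_univ _⟩

/-- members with coherent charts and equinumerous sets of points are isomorphic -/
theorem iso_of_coh (h : D.IsGeometry K) (hM : K.mem M) (hN : K.mem N)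
    (cM : Coh D K M Set.univ) (cN : Coh D K N Set.univ) (σ : D.P M ≃ D.P N) :
    Nonempty (M ≃[L] N) := by
  classical
  have cM' := cM.hasCharts
  have cN' := cN.hasCharts
  obtain ⟨φ, hφ1, hφ2⟩ := cM
  obtain ⟨ψ, hψ1, hψ2⟩ := cN
  have hφ3 : ∀ {n m} (a : Fin n → D.P M) (ha : Tup Set.univ a) (b : Fin m → D.P M)
      (hb : Tup Set.univ b) (f : Fin m → Fin n) (hf : Injective f), a ∘ f = b → ∀ w,
      φ n a ha (D.St ⟨f, hf⟩ w) = φ m b hb w := by
    rintro n m a ha b hb f hf rfl w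
    rw [← hφ2 n a ha m f hf]
    rfl
  have hψ3 : ∀ {n m} (a : Fin n → D.P N) (ha : Tup Set.univ a) (b : Fin m → D.P N)
      (hb : Tup Set.univ b) (f : Fin m → Fin n) (hf : Injective f), a ∘ f = b → ∀ w,
      ψ n a ha (D.St ⟨f, hf⟩ w) = ψ m b hb w := by
    rintro n m a ha b hb f hf rfl w
    rw [← hψ2 n a ha m f hf]
    rfl
  have hen : ∀ s : Finset (D.P M), Tup Set.univ (en s) := fun s => tup_univ (en_inj s)
  have hen' : ∀ s : Finset (D.P M), Tup Set.univ (σ ∘ en s) := fun s =>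
    tup_univ (σ.injective.comp (en_inj s))
  -- local charts
  have hmono : ∀ s t : Finset (D.P M), s ⊆ t → ∀ w, ∃ w', φ _ (en t) (hen t) w' =
      φ _ (en s) (hen s) w := by
    intro s t hst w
    obtain ⟨f, hf, hf2⟩ := exists_factor t (en_inj s) (fun i => hst (s.equivFin.symm i).2)
    exact ⟨_, hφ3 (en t) (hen t) (en s) (hen s) f hf hf2 w⟩
  have hloc : ∀ z : M, ∃ s : Finset (D.P M), ∃ w, φ _ (en s) (hen s) w = z := by
    intro z
    obtain ⟨n, a, χ, ha, hχ, hz⟩ := covered h hM cM' z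
    rw [LocData.IsChart.range_eq h hχ (hφ1 n a (tup_univ ha)) rfl] at hz
    obtain ⟨w, hw⟩ := hz
    obtain ⟨f, hf, hf2⟩ := exists_factor (Finset.univ.image a) ha
      (fun i => Finset.mem_image_of_mem _ (Finset.mem_univ i))
    exact ⟨_, _, (hφ3 _ (hen _) a (tup_univ ha) f hf hf2 w).trans hw⟩
  have hfam : ∀ {r : ℕ} (x : Fin r → M), ∃ s : Finset (D.P M), ∃ w : Fin r → _,
      ∀ i, φ _ (en s) (hen s) (w i) = x i := by
    intro r x
    choose s w hw using fun i => hloc (x i)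
    choose w' hw' using fun i => hmono (s i) (Finset.univ.biUnion s)
      (Finset.subset_biUnion_of_mem s (Finset.mem_univ i)) (w i)
    exact ⟨Finset.univ.biUnion s, w', fun i => (hw' i).trans (hw i)⟩
  choose s₀ w₀ hw₀ using hloc
  let g : M → N := fun z => ψ _ (σ ∘ en (s₀ z)) (hen' (s₀ z)) (w₀ z)
  have hg : ∀ s w, g (φ _ (en s) (hen s) w) = ψ _ (σ ∘ en s) (hen' s) w := by
    intro s w
    set z := φ _ (en s) (hen s) w with hz
    let t := s ∪ s₀ z
    obtain ⟨f, hf, hf2⟩ := exists_factor t (en_inj s)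
      (fun i => Finset.subset_union_left (s.equivFin.symm i).2)
    obtain ⟨f', hf', hf2'⟩ := exists_factor t (en_inj (s₀ z))
      (fun i => Finset.subset_union_right ((s₀ z).equivFin.symm i).2)
    have h1 : D.St ⟨f, hf⟩ w = D.St ⟨f', hf'⟩ (w₀ z) := by
      apply (φ _ (en t) (hen t)).injective
      rw [hφ3 (en t) (hen t) (en s) (hen s) f hf hf2 w,
        hφ3 (en t) (hen t) (en (s₀ z)) (hen (s₀ z)) f' hf' hf2' (w₀ z), hw₀ z]
    show ψ _ (σ ∘ en (s₀ z)) (hen' (s₀ z)) (w₀ z) = ψ _ (σ ∘ en s) (hen' s) w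
    rw [← hψ3 (σ ∘ en t) (hen' t) (σ ∘ en (s₀ z)) (hen' (s₀ z)) f' hf'
      (by rw [Function.comp_assoc, hf2']) (w₀ z),
      ← hψ3 (σ ∘ en t) (hen' t) (σ ∘ en s) (hen' s) f hf (by rw [Function.comp_assoc, hf2]) w, h1]
  have hinj : Injective g := by
    intro x y hxy
    obtain ⟨s, w, hw⟩ := hfam ![x, y]
    have h1 : φ _ (en s) (hen s) (w 0) = x := hw 0
    have h2 : φ _ (en s) (hen s) (w 1) = y := hw 1
    rw [← h1, ← h2, hg, hg] at hxy
    rw [← h1, ← h2, (ψ _ (σ ∘ en s) (hen' s)).injective hxy]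
  have hsurj : Surjective g := by
    intro y
    obtain ⟨n, b, χ, hb, hχ, hy⟩ := covered h hN cN' y
    rw [LocData.IsChart.range_eq h hχ (hψ1 n b (tup_univ hb)) rfl] at hy
    obtain ⟨w, hw⟩ := hy
    obtain ⟨f, hf, hf2⟩ := exists_factor (Finset.univ.image (σ.symm ∘ b))
      (σ.symm.injective.comp hb) (fun i => Finset.mem_image_of_mem _ (Finset.mem_univ i))
    refine ⟨φ _ (en _) (hen _) (D.St ⟨f, hf⟩ w), ?_⟩
    rw [hg, ← hw]
    refine hψ3 _ (hen' _) b (tup_univ hb) f hf ?_ w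
    rw [Function.comp_assoc, hf2]
    funext i
    exact σ.apply_symm_apply _
  refine ⟨⟨Equiv.ofBijective g ⟨hinj, hsurj⟩, ?_, ?_⟩⟩
  · intro r f x
    obtain ⟨s, w, hw⟩ := hfam x
    have h1 : x = φ _ (en s) (hen s) ∘ w := funext fun i => (hw i).symm
    show g (Language.Structure.funMap f x) = Language.Structure.funMap f (g ∘ x)
    have h2 : g ∘ x = ψ _ (σ ∘ en s) (hen' s) ∘ w := by
      funext i
      rw [h1]
      exact hg s (w i)
    rw [h2, h1, ← Language.Embedding.map_fun, ← Language.Embedding.map_fun, hg]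
  · intro r f x
    obtain ⟨s, w, hw⟩ := hfam x
    have h1 : x = φ _ (en s) (hen s) ∘ w := funext fun i => (hw i).symm
    show Language.Structure.RelMap f (g ∘ x) ↔ Language.Structure.RelMap f x
    have h2 : g ∘ x = ψ _ (σ ∘ en s) (hen' s) ∘ w := by
      funext i
      rw [h1]
      exact hg s (w i)
    rw [h2, h1, Language.Embedding.map_rel, Language.Embedding.map_rel]

/-- A locally standard class which is categorical in arbitrarily large cardinals is categorical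
in all sufficiently large cardinals. -/
theorem eventually (h : D.IsGeometry K)
    (hunb : ∀ χ : Cardinal.{u}, ∃ κ, χ ≤ κ ∧ K.CategoricalIn κ) :
    ∃ χ : Cardinal.{u}, ∀ κ, χ ≤ κ → K.CategoricalIn κ := by
  have hℓ := AEC.isLS_LS K
  obtain ⟨θ, hθ0, hθ⟩ := core (res := resM h) {κ | K.LS < κ ∧ K.CategoricalIn κ} (by
    intro b
    obtain ⟨κ, h1, h2⟩ := hunb (max (Order.succ b) (Order.succ K.LS))
    exact ⟨κ, ⟨(Order.lt_succ _).trans_le ((le_max_right _ _).trans h1), h2⟩,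
      (Order.lt_succ _).trans_le ((le_max_left _ _).trans h1)⟩)
  obtain ⟨κ₀, hκ₀, hκ₀cat⟩ := hunb (Order.succ K.LS)
  have hκ₀ℓ : K.LS < κ₀ := (Order.lt_succ _).trans_le hκ₀
  have hcoh : ∀ (M : Type u) [L.Structure M], K.mem M → max θ κ₀ ≤ #(D.P M) →
      Coh D K M Set.univ := by
    intro M _ hM hMθ
    obtain ⟨c, hc⟩ := coh_iff_sec h
      (hasCharts_of_cat h hℓ hM hκ₀ℓ hκ₀cat ((le_max_right _ _).trans hMθ))
    rw [hc]
    refine hθ _ c (fun κ hκ V hV => ?_) ((le_max_left _ _).trans hMθ)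
    rw [← hc]
    exact coh_of_cat h hℓ hM hκ.1 hκ.2 V hV
  refine ⟨max (max θ κ₀) (Order.succ K.LS), fun κ hκ => ?_⟩
  have hκθ : max θ κ₀ ≤ κ := (le_max_left _ _).trans hκ
  have hκℓ : K.LS < κ := (Order.lt_succ _).trans_le ((le_max_right _ _).trans hκ)
  constructor
  · obtain ⟨N, _, p, φ, hN, hp, hpP, -, -⟩ := std h κ.out
    have hPN : #(D.P N) = κ := by
      rw [← hpP, mk_range_eq p hp, mk_out]
    exact ⟨N, _, hN, by rw [mk_mem h hℓ hN (by rw [hPN]; exact hκℓ.le), hPN]⟩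
  · intro M N _ _ hM hN hMκ hNκ
    have h1 : #(D.P M) = κ := by rw [mk_P h hℓ hM (by rw [hMκ]; exact hκℓ), hMκ]
    have h2 : #(D.P N) = κ := by rw [mk_P h hℓ hN (by rw [hNκ]; exact hκℓ), hNκ]
    obtain ⟨σ⟩ : Nonempty (D.P M ≃ D.P N) := by
      rw [← Cardinal.eq, h1, h2]
    exact iso_of_coh h hM hN (hcoh M hM (by rw [h1]; exact hκθ))
      (hcoh N hN (by rw [h2]; exact hκθ)) σ

end Vale.Agent.P307.H479
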