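import Vale.Agent.P307.H479.Base2
import Mathlib.Order.Zorn
import Mathlib.Data.Set.Finite.Lattice

/-! P307 (helper479): the induction to all larger sizes. -/

universe u

open Cardinal Set Function

namespace Vale.Agent.P307.H479

section

variable {G : ℕ → Type u} {X : Type u} [∀ n, Group (G n)]
  {res : ∀ m n : ℕ, (Fin m → Fin n) → G n →* G m}

theorem one_point {c : Tw G X} {W₁ : Set X} {x : X} (hx : x ∉ W₁) {col : X → ℕ} {T : Finset ℕ}
    {s t : Coch G X} (ht : EE res c W₁ col T s t)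
    (hs : ∀ j ∈ T, Sec res c {y ∈ insert x W₁ | col y ≠ j} s)
    (IH : ∀ (col' : X → ℕ) (T' : Finset ℕ) (s' : Coch G X),
      (∀ y ∈ W₁, col y ∉ T → col' y ∉ T') →
      (∀ j ∈ T', Sec res c {y ∈ insert x W₁ | col' y ≠ j} s') →
      ∃ t', EE res c (insert x W₁) col' T' s' t') :
    ∃ t', EE res c (insert x W₁) col T s t' ∧ Agree W₁ t' t := by
  classical
  let col' : X → ℕ := fun y => if y = x then 0 else col y + 1
  let T' : Finset ℕ := insert 0 ((T.erase (col x)).image fun j => j + 1)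
  let s' : Coch G X := fun n a => if ∀ i, a i ∈ W₁ then t n a else s n a
  have hc1 : col' x = 0 := if_pos rfl
  have hc2 : ∀ y, y ≠ x → col' y = col y + 1 := fun y hy => if_neg hy
  have hne : ∀ y ∈ W₁, y ≠ x := fun y hy h => hx (h ▸ hy)
  have hs1 : Agree W₁ s' t := fun n a ha => if_pos ha.2
  have hs2 : ∀ j ∈ T, Agree {y ∈ insert x W₁ | col y ≠ j} s' s := by
    intro j hj n a ha
    by_cases h : ∀ i, a i ∈ W₁
    · have h1 : s' n a = t n a := if_pos h
      rw [h1]
      exact ht.2 j hj n a ⟨ha.1, fun i => ⟨h i, (ha.2 i).2⟩⟩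
    · exact if_neg h
  obtain ⟨t', ht'1, ht'2⟩ := IH col' T' s' (by
    intro y hy hyT h
    rw [hc2 y (hne y hy)] at h
    rcases Finset.mem_insert.1 h with h | h
    · omega
    · obtain ⟨i, hi, hi2⟩ := Finset.mem_image.1 h
      have : i = col y := by omega
      rw [← this] at hyT
      exact hyT (Finset.mem_of_mem_erase hi)) (by
    intro j hj
    rcases Finset.mem_insert.1 hj with h | h
    · subst h
      refine (ht.1.congr hs1).mono ?_
      rintro y ⟨hy, hy2⟩
      rcases hy with rfl | hy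
      · exact absurd hc1 hy2
      · exact hy
    · obtain ⟨i, hi, rfl⟩ := Finset.mem_image.1 h
      have hiT := Finset.mem_of_mem_erase hi
      have hix := Finset.ne_of_mem_erase hi
      refine ((hs i hiT).congr (hs2 i hiT)).mono ?_
      rintro y ⟨hy, hy2⟩
      refine ⟨hy, fun h2 => ?_⟩
      by_cases hyx : y = x
      · rw [hyx] at h2
        exact hix h2.symm
      · exact hy2 (by rw [hc2 y hyx, h2]))
  have hag : Agree W₁ t' t := by
    intro n a ha
    rw [ht'2 0 (Finset.mem_insert_self _ _) n a ⟨ha.1, fun i => ⟨Or.inr (ha.2 i), ?_⟩⟩]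
    · exact hs1 n a ha
    · rw [hc2 _ (hne _ (ha.2 i))]
      omega
  refine ⟨t', ⟨ht'1, fun j hj n a ha => ?_⟩, hag⟩
  by_cases hjx : j = col x
  · have h1 : Tup {y ∈ W₁ | col y ≠ j} a := by
      refine ⟨ha.1, fun i => ⟨?_, (ha.2 i).2⟩⟩
      rcases (ha.2 i).1 with h | h
      · exact absurd (by rw [h, hjx]) (ha.2 i).2
      · exact h
    rw [hag n a ⟨h1.1, fun i => (h1.2 i).1⟩]
    exact ht.2 j hj n a h1
  · rw [← hs2 j hj n a ha]
    refine ht'2 (j + 1) ?_ n a ⟨ha.1, fun i => ⟨(ha.2 i).1, ?_⟩⟩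
    · exact Finset.mem_insert_of_mem (Finset.mem_image_of_mem _ (Finset.mem_erase.2 ⟨hjx, hj⟩))
    · by_cases h : a i = x
      · rw [h, hc1]
        omega
      · rw [hc2 _ h]
        intro h2
        exact (ha.2 i).2 (by omega)

theorem extend_all {θ : Cardinal.{u}} (hθ0 : ℵ₀ ≤ θ) {c : Tw G X}
    (Hb : ∀ (W : Set X) (col : X → ℕ) (T : Finset ℕ), #W = θ →
      θ ≤ #{x // x ∈ W ∧ col x ∉ T} → ∀ s : Coch G X,
      (∀ j ∈ T, Sec res c {x ∈ W | col x ≠ j} s) → ∃ t, EE res c W col T s t)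
    (χ : Cardinal.{u}) : ∀ (W : Set X) (col : X → ℕ) (T : Finset ℕ), #W = χ →
      θ ≤ #{x // x ∈ W ∧ col x ∉ T} → ∀ s : Coch G X,
      (∀ j ∈ T, Sec res c {x ∈ W | col x ≠ j} s) → ∃ t, EE res c W col T s t := by
  classical
  induction χ using WellFoundedLT.induction with
  | ind χ ih =>
  intro W col T hW hB s hs
  have hθχ : θ ≤ χ := by
    rw [← hW]
    exact hB.trans (mk_le_mk_of_subset fun x hx => hx.1)
  rcases eq_or_lt_of_le hθχ with h | hlt
  · exact Hb W col T (hW.trans h.symm) hB s hs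
  have hχ0 : ℵ₀ ≤ χ := hθ0.trans hθχ
  obtain ⟨W₀, hW₀, hW₀θ⟩ := (le_mk_iff_exists_subset (s := {x | x ∈ W ∧ col x ∉ T})).1 hB
  obtain ⟨e⟩ : Nonempty (W ≃ χ.ord.ToType) := by
    rw [← Cardinal.eq, hW]
    simp
  have hne : Nonempty χ.ord.ToType := by
    rw [← mk_ne_zero_iff]
    simp only [mk_toType, card_ord]
    exact (aleph0_pos.trans_le hχ0).ne'
  let rk : X → χ.ord.ToType := fun x => if h : x ∈ W then e ⟨x, h⟩ else Classical.arbitrary _
  have hrk : ∀ x (h : x ∈ W), rk x = e ⟨x, h⟩ := fun x h => dif_pos h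
  have hrkinj : ∀ x ∈ W, ∀ y ∈ W, rk x = rk y → x = y := by
    intro x hx y hy hxy
    rw [hrk x hx, hrk y hy] at hxy
    exact congrArg Subtype.val (e.injective hxy)
  let α := {p : Set X × Coch G X // p.1 ⊆ W ∧ (∀ x ∈ p.1, ∀ y ∈ W, rk y < rk x → y ∈ p.1) ∧
    EE res c (W₀ ∪ p.1) col T s p.2}
  let r : α → α → Prop := fun p q => p.1.1 ⊆ q.1.1 ∧ Agree (W₀ ∪ p.1.1) q.1.2 p.1.2
  have hmax : ∃ p : α, ∀ q, r p q → r q p := by
    refine exists_maximal_of_chains_bounded (r := r) ?_ ?_
    · intro C hC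
      rcases C.eq_empty_or_nonempty with rfl | hCne
      · obtain ⟨t₀, ht₀⟩ := Hb W₀ col T hW₀θ (by
          rw [← hW₀θ]
          exact mk_le_mk_of_subset (s := W₀) (t := {x | x ∈ W₀ ∧ col x ∉ T})
            fun x hx => ⟨hx, (hW₀ hx).2⟩) s
          (fun j hj => (hs j hj).mono (sub_face (fun x hx => (hW₀ hx).1) col j))
        refine ⟨⟨(∅, t₀), empty_subset _, fun x hx => absurd hx (notMem_empty _), ?_⟩,
          fun a ha => absurd ha (notMem_empty _)⟩
        simpa using ht₀
      · have hcov : ∀ n (a : Fin n → X), Tup (W₀ ∪ ⋃ p ∈ C, p.1.1) a →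
            ∃ p ∈ C, Tup (W₀ ∪ p.1.1) a := by
          intro n a ha
          have h1 : DirectedOn (fun p q : α => W₀ ∪ p.1.1 ⊆ W₀ ∪ q.1.1) C := by
            intro p hp q hq
            by_cases hpq : p = q
            · exact ⟨p, hp, subset_rfl, by rw [hpq]⟩
            · rcases hC hp hq hpq with h | h
              · exact ⟨q, hq, union_subset_union_right _ h.1, subset_rfl⟩
              · exact ⟨p, hp, subset_rfl, union_subset_union_right _ h.1⟩
          obtain ⟨p, hp, hp2⟩ := DirectedOn.exists_mem_subset_of_finset_subset_biUnion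
            (f := fun p : α => W₀ ∪ p.1.1) hCne h1 (s := Finset.univ.image a) (by
              intro x hx
              obtain ⟨i, -, rfl⟩ := Finset.mem_image.1 (Finset.mem_coe.1 hx)
              rcases ha.2 i with h | h
              · obtain ⟨p, hp⟩ := hCne
                exact mem_biUnion hp (Or.inl h)
              · obtain ⟨p, hp, hp2⟩ := mem_iUnion₂.1 h
                exact mem_biUnion hp (Or.inr hp2))
          exact ⟨p, hp, ha.1, fun i => hp2 (Finset.mem_coe.2
            (Finset.mem_image_of_mem _ (Finset.mem_univ i)))⟩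
        let tI : Coch G X := fun n a =>
          if h : ∃ p ∈ C, Tup (W₀ ∪ p.1.1) a then h.choose.1.2 n a else 1
        have hval : ∀ p ∈ C, Agree (W₀ ∪ p.1.1) tI p.1.2 := by
          intro p hp n a ha
          have h : ∃ p ∈ C, Tup (W₀ ∪ p.1.1) a := ⟨p, hp, ha⟩
          have h1 : tI n a = h.choose.1.2 n a := dif_pos h
          rw [h1]
          obtain ⟨hq, ha'⟩ := h.choose_spec
          by_cases hpq : p = h.choose
          · rw [← hpq]
          · rcases hC hp hq hpq with h2 | h2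
            · exact h2.2 n a ha
            · exact (h2.2 n a ha').symm
        refine ⟨⟨(⋃ p ∈ C, p.1.1, tI), ?_, ?_, ?_, ?_⟩, ?_⟩
        · exact iUnion₂_subset fun p _ => p.2.1
        · intro x hx y hy hxy
          obtain ⟨p, hp, hp2⟩ := mem_iUnion₂.1 hx
          exact mem_biUnion hp (p.2.2.1 x hp2 y hy hxy)
        · intro n a ha m f hf
          obtain ⟨p, hp, hp2⟩ := hcov n a ha
          show tI m (a ∘ f) = c n a m f * res m n f (tI n a)
          rw [hval p hp n a hp2, hval p hp m _ (hp2.comp hf)]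
          exact p.2.2.2.1 n a hp2 m f hf
        · intro j hj n a ha
          obtain ⟨p, hp, hp2⟩ := hcov n a ⟨ha.1, fun i => (ha.2 i).1⟩
          show tI n a = s n a
          rw [hval p hp n a hp2]
          exact p.2.2.2.2 j hj n a ⟨hp2.1, fun i => ⟨hp2.2 i, (ha.2 i).2⟩⟩
        · intro p hp
          exact ⟨subset_biUnion_of_mem (u := fun p : α => p.1.1) hp, hval p hp⟩
    · intro p q q' h1 h2
      exact ⟨h1.1.trans h2.1, (h2.2.mono (union_subset_union_right _ h1.1)).trans h1.2⟩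
  obtain ⟨p, hp⟩ := hmax
  have hpW : p.1.1 = W := by
    by_contra hcon
    have h1 : ∃ x ∈ W, x ∉ p.1.1 := by
      by_contra h2
      push Not at h2
      exact hcon (subset_antisymm p.2.1 h2)
    obtain ⟨x, ⟨hxW, hxI⟩, hmin⟩ := WellFounded.has_min (InvImage.wf rk wellFounded_lt)
      {x | x ∈ W ∧ x ∉ p.1.1} h1
    have hlow : ∀ y ∈ W, rk y < rk x → y ∈ p.1.1 := by
      intro y hy hyx
      by_contra h2
      exact hmin y ⟨hy, h2⟩ hyx
    have hup : ∀ y ∈ p.1.1, rk y < rk x := by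
      intro y hy
      by_contra h2
      rcases eq_or_lt_of_le (not_lt.1 h2) with h3 | h3
      · exact hxI (hrkinj x hxW y (p.2.1 hy) h3 ▸ hy)
      · exact hxI (p.2.2.1 y hy x hxW h3)
    have key : ∃ t', EE res c (W₀ ∪ insert x p.1.1) col T s t' ∧ Agree (W₀ ∪ p.1.1) t' p.1.2 := by
      by_cases hx0 : x ∈ W₀
      · refine ⟨p.1.2, ?_, Agree.refl _ _⟩
        rw [union_insert, insert_eq_of_mem (show x ∈ W₀ ∪ p.1.1 from Or.inl hx0)]
        exact p.2.2.2
      · rw [union_insert]
        have hsub : insert x (W₀ ∪ p.1.1) ⊆ W := by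
          refine insert_subset hxW (union_subset (fun y hy => (hW₀ hy).1) p.2.1)
        have hIlt : #p.1.1 < χ := by
          have h2 : #(p.1.1) ≤ #(Iio (rk x)) := by
            refine mk_le_of_injective (f := fun y => (⟨rk y.1, hup y.1 y.2⟩ : Iio (rk x))) ?_
            intro y z hyz
            exact Subtype.ext (hrkinj _ (p.2.1 y.2) _ (p.2.1 z.2) (Subtype.mk.inj hyz))
          refine h2.trans_lt ?_
          simpa using mk_Iio_lt (rk x) (by simp)
        have hcard : #(insert x (W₀ ∪ p.1.1) : Set X) < χ := by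
          refine (mk_insert_le).trans_lt ?_
          refine add_lt_of_lt hχ0 ?_ (one_lt_aleph0.trans_le hχ0)
          exact (mk_union_le _ _).trans_lt (add_lt_of_lt hχ0 (hW₀θ ▸ hlt) hIlt)
        refine one_point (fun h2 => h2.elim hx0 hxI) p.2.2.2
          (fun j hj => (hs j hj).mono (sub_face hsub col j)) ?_
        intro col' T' s' h2 h3
        refine ih _ hcard _ col' T' rfl ?_ s' h3
        rw [← hW₀θ]
        exact mk_le_mk_of_subset (s := W₀) (t := {y | y ∈ insert x (W₀ ∪ p.1.1) ∧ col' y ∉ T'})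
          fun y hy => ⟨Or.inr (Or.inl hy), h2 y (Or.inl hy) (hW₀ hy).2⟩
    obtain ⟨t', ht', ht''⟩ := key
    have h4 := hp ⟨(insert x p.1.1, t'), insert_subset hxW p.2.1, by
      rintro z (rfl | hz) y hy hyz
      · exact Or.inr (hlow y hy hyz)
      · exact Or.inr (p.2.2.1 z hz y hy hyz), ht'⟩ ⟨subset_insert _ _, ht''⟩
    exact hxI (h4.1 (mem_insert _ _))
  refine ⟨p.1.2, p.2.2.2.mono ?_⟩
  rw [hpW]
  exact subset_union_right

/-- The core theorem: a twisted form all of whose restrictions to sets of sizes in an unbounded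
class have sections has a section, if it lives on a large set. -/
theorem core (S : Set Cardinal.{u}) (hS : ∀ b, ∃ κ ∈ S, b < κ) : ∃ θ : Cardinal.{u}, ℵ₀ ≤ θ ∧
    ∀ (X : Type u) (c : Tw G X), (∀ κ ∈ S, ∀ V : Set X, #V = κ → ∃ u, Sec res c V u) →
      θ ≤ #X → ∃ u, Sec res c Set.univ u := by
  choose nx hnxS hnx using hS
  let κ : ℕ → Cardinal.{u} := fun m => Nat.rec (nx ℵ₀)
    (fun _ x => nx (max x (hanfG (G := G) res x))) m
  have hκs : ∀ m, κ (m + 1) = nx (max (κ m) (hanfG (G := G) res (κ m))) := fun m => rfl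
  have hκlt : ∀ m, κ m < κ (m + 1) := fun m => by
    rw [hκs]
    exact (le_max_left _ _).trans_lt (hnx _)
  have hκS : ∀ m, κ m ∈ S := by
    intro m
    cases m with
    | zero => exact hnxS _
    | succ m => exact hnxS _
  have hκ0 : ∀ m, ℵ₀ ≤ κ m := by
    intro m
    induction m with
    | zero => exact (hnx _).le
    | succ m ih => exact ih.trans (hκlt m).le
  have hbd : BddAbove (range κ) := bddAbove_of_small
  have hθ0 : ℵ₀ ≤ ⨆ m, κ m := (hκ0 0).trans (le_ciSup hbd 0)
  refine ⟨⨆ m, κ m, hθ0, ?_⟩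
  intro X c H hX
  obtain ⟨t, ht, -⟩ := extend_all (res := res) hθ0 (c := c)
    (fun W col T hW hB s hs => base_case hκ0 (strictMono_nat_of_lt_succ hκlt)
      (fun m => by
        rw [hκs]
        exact (le_max_right _ _).trans (hnx _).le)
      (fun m V hV => H _ (hκS m) V hV) hW hB hs) #X Set.univ (fun _ => 0) ∅ (by simp) (by
      rw [← mk_univ] at hX
      refine hX.trans ?_
      exact mk_le_mk_of_subset (s := Set.univ)
        (t := {x : X | x ∈ Set.univ ∧ 0 ∉ (∅ : Finset ℕ)})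
        fun x _ => ⟨mem_univ x, Finset.notMem_empty 0⟩)
    1 (fun j hj => absurd hj (Finset.notMem_empty j))
  exact ⟨t, ht⟩

end

end Vale.Agent.P307.H479
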