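import Vale.Agent.P307.H479.Lim
import Vale.Agent.P307.H479.Ind
import Vale.Agent.P307.Bdl.B1

/-! P307 (helper479): charts, the groups and the cocycle. -/

universe u

open FirstOrder Cardinal Function

namespace Vale.Agent.P307.H479

variable {L : Language.{u, u}} {K : AEC L} {D : LocData L}

theorem exists_equiv {A B M : Type u} [L.Structure A] [L.Structure B] [L.Structure M]
    (φ : A ↪[L] M) (ψ : B ↪[L] M) (h : Set.range φ = Set.range ψ) :
    ∃ g : B ≃[L] A, ∀ z, φ (g z) = ψ z := by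
  have h1 : ∀ z, ∃ w, φ w = ψ z := fun z => by
    have : ψ z ∈ Set.range ψ := ⟨z, rfl⟩
    rw [← h] at this
    exact this
  choose g hg using h1
  have hinj : Injective g := by
    intro x y hxy
    apply ψ.injective
    rw [← hg x, ← hg y, hxy]
  have hsurj : Surjective g := by
    intro x
    have h2 : φ x ∈ Set.range φ := ⟨x, rfl⟩
    rw [h] at h2
    obtain ⟨z, hz⟩ := h2
    refine ⟨z, φ.injective ?_⟩
    rw [hg, hz]
  refine ⟨⟨Equiv.ofBijective g ⟨hinj, hsurj⟩, ?_, ?_⟩, hg⟩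
  · intro n f x
    apply φ.injective
    show φ (g (Language.Structure.funMap f x)) = φ (Language.Structure.funMap f (g ∘ x))
    rw [hg, ψ.map_fun, φ.map_fun]
    congr 1
    funext i
    exact (hg (x i)).symm
  · intro n r x
    show Language.Structure.RelMap r (g ∘ x) ↔ Language.Structure.RelMap r x
    rw [← φ.map_rel, ← ψ.map_rel]
    have h2 : (φ ∘ g ∘ x) = ψ ∘ x := funext fun i => hg (x i)
    rw [h2]

variable {M N : Type u} [L.Structure M] [L.Structure N]

theorem LocData.IsChart.comp (h : D.IsGeometry K) {j : M ↪[L] N} (hj : K.Emb j) {n : ℕ} {a : Fin n → M}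
    {φ : D.F n ↪[L] M} (hφ : D.IsChart K a φ) : D.IsChart K (j ∘ a) (j.comp φ) := by
  refine ⟨AEC.Emb.comp hj hφ.1, fun i => ?_, ?_⟩
  · show j (φ (D.pt n i)) = j (a i)
    rw [hφ.2.1]
  · ext x
    constructor
    · rintro ⟨⟨z, rfl⟩, hx⟩
      have h1 : φ z ∈ D.P M := (P_emb h hj _).1 hx
      have h2 : φ z ∈ Set.range φ ∩ D.P M := ⟨⟨z, rfl⟩, h1⟩
      rw [hφ.2.2] at h2
      obtain ⟨i, hi⟩ := h2
      exact ⟨i, congrArg j hi⟩
    · rintro ⟨i, rfl⟩
      have h2 : a i ∈ Set.range φ ∩ D.P M := by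
        rw [hφ.2.2]
        exact ⟨i, rfl⟩
      obtain ⟨⟨z, hz⟩, h3⟩ := h2
      exact ⟨⟨z, congrArg j hz⟩, (P_emb h hj _).2 h3⟩

theorem LocData.IsChart.mem {n : ℕ} {a : Fin n → M} {φ : D.F n ↪[L] M} (hφ : D.IsChart K a φ) :
    K.mem M := AEC.Emb.mem_right (K := K) hφ.1

theorem LocData.IsChart.pts {n : ℕ} {a : Fin n → M} {φ : D.F n ↪[L] M} (hφ : D.IsChart K a φ) (i : Fin n) :
    a i ∈ D.P M := by
  have h2 : a i ∈ Set.range φ ∩ D.P M := by
    rw [hφ.2.2]
    exact ⟨i, rfl⟩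
  exact h2.2

/-- charts with the same points have the same range -/
theorem LocData.IsChart.range_eq (h : D.IsGeometry K) {n m : ℕ} {a : Fin n → M} {b : Fin m → M}
    {φ : D.F n ↪[L] M} {ψ : D.F m ↪[L] M} (hφ : D.IsChart K a φ) (hψ : D.IsChart K b ψ)
    (hab : Set.range a = Set.range b) : Set.range φ = Set.range ψ := by
  have hV : Set.range a ⊆ D.P M := by
    rintro _ ⟨i, rfl⟩
    exact hφ.pts i
  have h1 := (h.sub hφ.mem (Set.range a) hV).unique (y₁ := φ.toHom.range) (y₂ := ψ.toHom.range)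
    ⟨hφ.1, by rw [coe_range']; exact hφ.2.2⟩
    ⟨hψ.1, by rw [coe_range', hab]; exact hψ.2.2⟩
  rw [← coe_range', ← coe_range', h1]

theorem St_chart (h : D.IsGeometry K) {m n : ℕ} (f : Fin m ↪ Fin n) :
    D.IsChart K (D.pt n ∘ f) (D.St f) :=
  isChart_of_emb h (h.St_strong f) (h.St_pt f)

theorem LocData.IsChart.restrict (h : D.IsGeometry K) {m n : ℕ} (f : Fin m ↪ Fin n) {a : Fin n → M}
    {φ : D.F n ↪[L] M} (hφ : D.IsChart K a φ) : D.IsChart K (a ∘ f) (φ.comp (D.St f)) := by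
  have h1 := LocData.IsChart.comp h (j := φ) hφ.1 (St_chart h f)
  have h2 : φ ∘ D.pt n ∘ f = a ∘ f := funext fun i => hφ.2.1 (f i)
  rwa [h2] at h1

/-! ### the groups -/

/-- Automorphisms of `F n` over its points. -/
def Gr (D : LocData L) (n : ℕ) : Type u :=
  {g : D.F n ≃[L] D.F n // ∀ i, g (D.pt n i) = D.pt n i}

noncomputable instance (D : LocData L) (n : ℕ) : Group (Gr D n) where
  mul g k := ⟨g.1.comp k.1, fun i => by
    rw [Language.Equiv.comp_apply, k.2, g.2]⟩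
  one := ⟨Language.Equiv.refl L _, fun i => rfl⟩
  inv g := ⟨g.1.symm, fun i => by
    have := congrArg g.1.symm (g.2 i)
    rw [Language.Equiv.symm_apply_apply] at this
    exact this.symm⟩
  mul_assoc _ _ _ := rfl
  one_mul _ := rfl
  mul_one _ := rfl
  inv_mul_cancel g := by
    apply Subtype.ext
    exact Language.Equiv.symm_comp_self g.1

theorem Gr.mul_apply {n : ℕ} (g k : Gr D n) (z : D.F n) : (g * k).1 z = g.1 (k.1 z) := rfl

theorem Gr.ext {n : ℕ} {g k : Gr D n} (h : ∀ z, g.1 z = k.1 z) : g = k :=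
  Subtype.ext (Language.Equiv.ext h)

theorem exists_gr (h : D.IsGeometry K) {n : ℕ} {a : Fin n → M} {φ ψ : D.F n ↪[L] M}
    (hφ : D.IsChart K a φ) (hψ : D.IsChart K a ψ) : ∃ k : Gr D n, ∀ z, φ (k.1 z) = ψ z := by
  obtain ⟨g, hg⟩ := exists_equiv φ ψ (LocData.IsChart.range_eq h hφ hψ rfl)
  refine ⟨⟨g, fun i => φ.injective ?_⟩, hg⟩
  rw [hg, hψ.2.1, hφ.2.1]

theorem exists_res (h : D.IsGeometry K) {m n : ℕ} (f : Fin m ↪ Fin n) (g : Gr D n) :
    ∃ k : Gr D m, ∀ z, D.St f (k.1 z) = g.1 (D.St f z) := by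
  have h1 := St_chart h f
  have h2 := LocData.IsChart.comp h (j := g.1.toEmbedding) (AEC.Emb.of_equiv g.1 (h.mem_F n)) h1
  have h3 : g.1.toEmbedding ∘ D.pt n ∘ f = D.pt n ∘ f := funext fun i => g.2 (f i)
  rw [h3] at h2
  exact exists_gr h h1 h2

open Classical in
/-- The restriction homomorphisms. -/
noncomputable def resM (h : D.IsGeometry K) (m n : ℕ) (f : Fin m → Fin n) :
    Gr D n →* Gr D m :=
  if hf : Injective f then
    { toFun := fun g => (exists_res h ⟨f, hf⟩ g).choose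
      map_one' := by
        apply Gr.ext
        intro z
        apply (D.St ⟨f, hf⟩).injective
        rw [(exists_res h ⟨f, hf⟩ 1).choose_spec z]
        rfl
      map_mul' := by
        intro g k
        apply Gr.ext
        intro z
        apply (D.St ⟨f, hf⟩).injective
        rw [(exists_res h ⟨f, hf⟩ (g * k)).choose_spec z, Gr.mul_apply, Gr.mul_apply,
          (exists_res h ⟨f, hf⟩ g).choose_spec, (exists_res h ⟨f, hf⟩ k).choose_spec] }
  else 1

theorem resM_spec (h : D.IsGeometry K) {m n : ℕ} {f : Fin m → Fin n} (hf : Injective f)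
    (g : Gr D n) (z : D.F m) :
    D.St ⟨f, hf⟩ ((resM h m n f g).1 z) = g.1 (D.St ⟨f, hf⟩ z) := by
  unfold resM
  rw [dif_pos hf]
  exact (exists_res h ⟨f, hf⟩ g).choose_spec z

/-! ### coherent families of charts -/

/-- `M` has a coherent family of charts over the set `V` of points. -/
def Coh (D : LocData L) (K : AEC L) (M : Type u) [L.Structure M] (V : Set (D.P M)) : Prop :=
  ∃ ψ : ∀ n (a : Fin n → D.P M), Tup V a → (D.F n ↪[L] M),
    (∀ n a ha, D.IsChart K (fun i => (a i : M)) (ψ n a ha)) ∧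
    ∀ n a ha m (f : Fin m → Fin n) (hf : Injective f),
      (ψ n a ha).comp (D.St ⟨f, hf⟩) = ψ m (a ∘ f) (ha.comp hf)

/-- `M` has charts at all injective tuples of points. -/
def HasCharts (D : LocData L) (K : AEC L) (M : Type u) [L.Structure M] : Prop :=
  ∀ (n : ℕ) (a : Fin n → M), Injective a → (∀ i, a i ∈ D.P M) →
    ∃ φ : D.F n ↪[L] M, D.IsChart K a φ

theorem Coh.hasCharts (hc : Coh D K M Set.univ) : HasCharts D K M := by
  obtain ⟨ψ, hψ, -⟩ := hc
  intro n a ha hP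
  exact ⟨_, hψ n (fun i => ⟨a i, hP i⟩) ⟨fun i j hij => ha (Subtype.mk.inj hij),
    fun _ => Set.mem_univ _⟩⟩

theorem coh_iff_sec (h : D.IsGeometry K) (hM : HasCharts D K M) :
    ∃ c : Tw (Gr D) (D.P M), ∀ V : Set (D.P M), Coh D K M V ↔ ∃ u, Sec (resM h) c V u := by
  classical
  have h1 : ∀ n (a : Fin n → D.P M), Injective a → ∃ φ : D.F n ↪[L] M,
      D.IsChart K (fun i => (a i : M)) φ := fun n a ha =>
    hM n (fun i => (a i : M)) (fun i j hij => ha (Subtype.ext hij)) (fun i => (a i).2)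
  choose φ hφ using h1
  have h2 : ∀ n (a : Fin n → D.P M) (ha : Injective a) m (f : Fin m → Fin n) (hf : Injective f),
      ∃ k : Gr D m, ∀ z, φ m (a ∘ f) (ha.comp hf) (k.1 z) = φ n a ha (D.St ⟨f, hf⟩ z) :=
    fun n a ha m f hf => exists_gr h (hφ m (a ∘ f) (ha.comp hf))
      (LocData.IsChart.restrict h ⟨f, hf⟩ (hφ n a ha))
  choose k hk using h2
  let c : Tw (Gr D) (D.P M) := fun n a m f =>
    if hh : Injective a ∧ Injective f then k n a hh.1 m f hh.2 else 1
  have hc : ∀ n (a : Fin n → D.P M) (ha : Injective a) m (f : Fin m → Fin n) (hf : Injective f)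
      (z : D.F m), φ m (a ∘ f) (ha.comp hf) ((c n a m f).1 z) = φ n a ha (D.St ⟨f, hf⟩ z) := by
    intro n a ha m f hf z
    have h3 : c n a m f = k n a ha m f hf := dif_pos ⟨ha, hf⟩
    rw [h3]
    exact hk n a ha m f hf z
  refine ⟨c, fun V => ⟨?_, ?_⟩⟩
  · rintro ⟨ψ, hψ1, hψ2⟩
    have h3 : ∀ n (a : Fin n → D.P M) (ha : Tup V a), ∃ g : Gr D n, ∀ z,
        φ n a ha.1 (g.1 z) = ψ n a ha z := fun n a ha => exists_gr h (hφ n a ha.1) (hψ1 n a ha)
    choose g hg using h3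
    let u : Coch (Gr D) (D.P M) := fun n a => if ha : Tup V a then g n a ha else 1
    have hu : ∀ n (a : Fin n → D.P M) (ha : Tup V a) z, φ n a ha.1 ((u n a).1 z) = ψ n a ha z := by
      intro n a ha z
      have h4 : u n a = g n a ha := dif_pos ha
      rw [h4]
      exact hg n a ha z
    refine ⟨u, fun n a ha m f hf => Gr.ext fun z => (φ m (a ∘ f) (ha.comp hf).1).injective ?_⟩
    rw [hu m (a ∘ f) (ha.comp hf), Gr.mul_apply, hc n a ha.1 m f hf, resM_spec h hf,
      hu n a ha, ← hψ2 n a ha m f hf]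
    rfl
  · rintro ⟨u, hu⟩
    refine ⟨fun n a ha => (φ n a ha.1).comp (u n a).1.toEmbedding, fun n a ha => ?_,
      fun n a ha m f hf => ?_⟩
    · refine isChart_of_emb h (AEC.Emb.comp (hφ n a ha.1).1
        (AEC.Emb.of_equiv (u n a).1 (h.mem_F n))) fun i => ?_
      show φ n a ha.1 ((u n a).1 (D.pt n i)) = a i
      rw [(u n a).2 i]
      exact (hφ n a ha.1).2.1 i
    · apply Language.Embedding.ext
      intro z
      show φ n a ha.1 ((u n a).1 (D.St ⟨f, hf⟩ z)) =
        φ m (a ∘ f) (ha.comp hf).1 ((u m (a ∘ f)).1 z)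
      rw [← resM_spec h hf (u n a) z, ← hc n a ha.1 m f hf, ← Gr.mul_apply,
        ← hu n a ha m f hf]

end Vale.Agent.P307.H479
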