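import Vale.Agent.P307.Defs

/-! P307 (helper479): locally standard abstract elementary classes. -/

universe u

open FirstOrder Cardinal Function

namespace Vale.Agent.P307.H479

/-- Local data: for every structure `M` a set `P M` of points; for every `n` a structure `F n`
with points `pt n 0, …, pt n (n - 1)`; for every injection `f : Fin m ↪ Fin n` an embedding
`St f : F m ↪ F n`. -/
structure LocData (L : Language.{u, u}) where
  P : ∀ (M : Type u) [L.Structure M], Set M
  F : ℕ → Type u
  [str : ∀ n, L.Structure (F n)]
  pt : ∀ n, Fin n → F n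
  St : ∀ {m n : ℕ}, (Fin m ↪ Fin n) → (F m ↪[L] F n)

attribute [instance] LocData.str

variable {L : Language.{u, u}}

/-- `K` has a symmetric point geometry with respect to the data `D`. -/
structure LocData.IsGeometry (D : LocData L) (K : AEC L) : Prop where
  /-- isomorphisms preserve points -/
  P_iso : ∀ {M N : Type u} [L.Structure M] [L.Structure N] (e : M ≃[L] N), K.mem M →
    ∀ x, e x ∈ D.P N ↔ x ∈ D.P M
  /-- the points of a strong substructure `S` of `N` are the points of `N` in `S` -/
  P_le : ∀ {N : Type u} [L.Structure N] (S : L.Substructure N), K.le S →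
    ∀ x : S, x ∈ D.P S ↔ (x : N) ∈ D.P N
  /-- every set of points of a member is the set of points of exactly one strong substructure -/
  sub : ∀ {N : Type u} [L.Structure N], K.mem N → ∀ V : Set N, V ⊆ D.P N →
    ∃! S : L.Substructure N, K.le S ∧ (S : Set N) ∩ D.P N = V
  /-- `F n` is a member with `n` points -/
  mem_F : ∀ n, K.mem (D.F n)
  pt_inj : ∀ n, Injective (D.pt n)
  P_F : ∀ n, D.P (D.F n) = Set.range (D.pt n)
  /-- `St` is a functor into strong embeddings, which acts on the points as expected -/
  St_strong : ∀ {m n : ℕ} (f : Fin m ↪ Fin n), K.le (D.St f).toHom.range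
  St_pt : ∀ {m n : ℕ} (f : Fin m ↪ Fin n) (i : Fin m), D.St f (D.pt m i) = D.pt n (f i)
  St_comp : ∀ {l m n : ℕ} (f : Fin l ↪ Fin m) (g : Fin m ↪ Fin n),
    (D.St g).comp (D.St f) = D.St (f.trans g)

/-- `K` has a symmetric point geometry. -/
def SymmetricPoints (K : AEC L) : Prop := ∃ D : LocData L, D.IsGeometry K

end Vale.Agent.P307.H479
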