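import Vale.Agent.P307.Gw.Restr
import Vale.Agent.P307.Ow.Code

/-! The Hanf number for geometric members. -/

universe u

open FirstOrder Cardinal Set Function Language

namespace Vale.Agent.P307.H479

open Gw

theorem isGeometric_of_part_eq {L : Language.{u, u}} {Λ : Type u} {K₁ K₂ : AEC L}
    (h : K₁.part Λ = K₂.part Λ) (hK₁ : K₁.IsLS #Λ) (hK₂ : K₂.IsLS #Λ) {M : Type u}
    [L.Structure M] (hB : IsGeometric K₁ M) : IsGeometric K₂ M := by
  obtain ⟨X, Mt, e, he⟩ := hB
  exact ⟨X, Mt, e.trans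
    { toFun := fun S => ⟨S.1, Ow.le_of_part_eq' h hK₁ S.2⟩
      invFun := fun S => ⟨S.1, Ow.le_of_part_eq' h.symm hK₂ S.2⟩
      left_inv := fun _ => rfl
      right_inv := fun _ => rfl
      map_rel_iff' := Iff.rfl }, he⟩

section up

variable {L L' : Language.{u, u}} {φ : L →ᴸ L'}

/-- An isomorphism of reducts is an isomorphism. -/
def upEquiv (hf : ∀ n, Function.Bijective (φ.onFunction (n := n)))
    (hr : ∀ n, Function.Surjective (φ.onRelation (n := n))) {M N : Type u} [L'.Structure M]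
    [L'.Structure N] (i : Dn φ M ≃[L] Dn φ N) : M ≃[L'] N where
  toEquiv := i.toEquiv
  map_fun' := by
    intro n f x
    obtain ⟨f, rfl⟩ := (hf n).2 f
    exact i.map_fun f x
  map_rel' := by
    intro n r x
    obtain ⟨r, rfl⟩ := hr n r
    exact i.map_rel r x

/-- Strong substructures of a structure and of its reduct. -/
noncomputable def upIso (K : AEC L) (hf : ∀ n, Function.Bijective (φ.onFunction (n := n)))
    (hr : ∀ n, Function.Surjective (φ.onRelation (n := n))) (M : Type u) [L'.Structure M] :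
    {S : L'.Substructure M // (K.up φ hf hr).le S} ≃o
      {S : L.Substructure (Dn φ M) // K.le S} :=
    { toEquiv := Equiv.ofBijective (fun S => ⟨dn φ S.1, S.2⟩) ⟨fun S T h => Subtype.ext
        (Ow.dn_injective (congrArg Subtype.val h)), fun T => by
          obtain ⟨S, hS⟩ := exists_up (fun n => (hf n).2) T.1
          refine ⟨⟨S, ?_⟩, Subtype.ext hS⟩
          change K.le (dn φ S)
          rw [hS]
          exact T.2⟩
      map_rel_iff' := Iff.rfl }

theorem upIso_val (K : AEC L) (hf : ∀ n, Function.Bijective (φ.onFunction (n := n)))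
    (hr : ∀ n, Function.Surjective (φ.onRelation (n := n))) (M : Type u) [L'.Structure M]
    (S : {S : L'.Substructure M // (K.up φ hf hr).le S}) :
    ((upIso K hf hr M S).1 : L.Substructure (Dn φ M)) = dn φ S.1 := rfl

theorem isGeometric_up (K : AEC L) (hf : ∀ n, Function.Bijective (φ.onFunction (n := n)))
    (hr : ∀ n, Function.Surjective (φ.onRelation (n := n))) (M : Type u) [L'.Structure M] :
    IsGeometric (K.up φ hf hr) M ↔ IsGeometric K (Dn φ M) := by
  let E := upIso K hf hr M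
  constructor
  · rintro ⟨X, Mt, e, he⟩
    refine ⟨X, Mt, e.trans E, fun B B' hB hB' => ?_⟩
    obtain ⟨σ, h1, h2, h3⟩ := he B B' hB hB'
    have key : ∀ S T : {S : L'.Substructure M // (K.up φ hf hr).le S},
        S.1.map σ.toHom = T.1 → (E S).1.map (dnEquiv φ σ).toHom = (E T).1 := by
      intro S T h
      ext x
      have h4 : x ∈ (S.1.map σ.toHom : L'.Substructure M) ↔ x ∈ T.1 := by rw [h]
      exact h4
    refine ⟨dnEquiv φ σ, fun b hb => key _ _ (h1 b hb), fun b hb => ?_, fun b' hb' => ?_⟩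
    · obtain ⟨b', h4, h5⟩ := h2 b hb
      exact ⟨b', h4, key _ _ h5⟩
    · obtain ⟨b, h4, h5⟩ := h3 b' hb'
      exact ⟨b, h4, key _ _ h5⟩
  · rintro ⟨X, Mt, e, he⟩
    refine ⟨X, Mt, e.trans E.symm, fun B B' hB hB' => ?_⟩
    obtain ⟨σ, h1, h2, h3⟩ := he B B' hB hB'
    have key : ∀ S T : {S : L.Substructure (Dn φ M) // K.le S},
        S.1.map σ.toHom = T.1 → (E.symm S).1.map (upEquiv hf hr σ).toHom = (E.symm T).1 := by
      intro S T h
      have hS : dn φ (E.symm S).1 = S.1 := congrArg Subtype.val (E.apply_symm_apply S)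
      have hT : dn φ (E.symm T).1 = T.1 := congrArg Subtype.val (E.apply_symm_apply T)
      rw [← hS, ← hT] at h
      ext x
      have h4 : x ∈ ((dn φ (E.symm S).1).map σ.toHom : L.Substructure (Dn φ M)) ↔
          x ∈ dn φ (E.symm T).1 := by rw [h]
      exact h4
    refine ⟨upEquiv hf hr σ, fun b hb => key _ _ (h1 b hb), fun b hb => ?_, fun b' hb' => ?_⟩
    · obtain ⟨b', h4, h5⟩ := h2 b hb
      exact ⟨b', h4, key _ _ h5⟩
    · obtain ⟨b, h4, h5⟩ := h3 b' hb'
      exact ⟨b, h4, key _ _ h5⟩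

end up

/-- The cardinalities of the geometric members of the classes with a given code. -/
def gspec {Λ : Type u} (c : CodeTy Λ) : Set Cardinal.{u} :=
  {κ | ∃ K : AEC (canLang c.1.1 c.1.2), K.IsLS #Λ ∧ K.part Λ = c.2 ∧
    ∃ (M : Type u) (_ : (canLang c.1.1 c.1.2).Structure M), K.mem M ∧ #M = κ ∧
      IsGeometric K M}

theorem exists_gcode {Λ : Type u} {L : Language.{u, u}} (K : AEC L) (hK : K.IsLS #Λ) :
    ∃ c : CodeTy Λ, ∀ κ, κ ∈ gspec c ↔ ∃ (M : Type u) (_ : L.Structure M), K.mem M ∧ #M = κ ∧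
      IsGeometric K M := by
  obtain ⟨A, B, φ, hf, hr⟩ := exists_canLang L Λ hK.2.1
  let K' : AEC (canLang A B) := K.up φ hf (fun n => (hr n).2)
  have hK' : K'.IsLS #Λ := AEC.up_isLS hf (fun n => (hr n).2) hK
  refine ⟨⟨(A, B), K'.part Λ⟩, fun κ => ?_⟩
  constructor
  · rintro ⟨K'', h1, h2, M, _, h3, h4, h5⟩
    have h6 : IsGeometric K' M := isGeometric_of_part_eq h2 h1 hK' h5
    exact ⟨Dn φ M, inferInstance, mem_of_part_eq h2 h1 h3, h4,
      (isGeometric_up K hf (fun n => (hr n).2) M).1 h6⟩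
  · rintro ⟨M, _, h3, h4, h5⟩
    obtain ⟨s, ⟨e⟩⟩ := exists_expand hf hr M
    have h6 : K.mem (Dn φ M) := K.mem_iso e h3
    have h7 : IsGeometric K (Dn φ M) :=
      isGeometric_of_emb e.symm.toEmbedding (AEC.Emb.of_equiv e.symm h6) h5
    exact ⟨K', hK', rfl, M, s, h6, h4, (isGeometric_up K hf (fun n => (hr n).2) M).2 h7⟩

/-- The Hanf number for geometric members. -/
theorem exists_mu_geometric (l : Cardinal.{u}) : ∃ μ : Cardinal.{u}, ∀ (L : Language.{u, u})
    (K : AEC L), K.LS ≤ l → (∃ (M : Type u) (_ : L.Structure M), K.mem M ∧ μ ≤ #M ∧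
      IsGeometric K M) → ∀ a : Cardinal.{u}, ∃ (M : Type u) (_ : L.Structure M),
        K.mem M ∧ a ≤ #M ∧ IsGeometric K M := by
  obtain ⟨Λ, hΛ⟩ : ∃ Λ : Type u, #Λ = l := ⟨l.out, mk_out l⟩
  have h : ∀ c : CodeTy Λ, ∃ b : Cardinal.{u}, (∀ κ ∈ gspec c, κ ≤ b) ∨
      ∀ b', ∃ κ ∈ gspec c, b' < κ := by
    intro c
    by_cases hb : ∃ b : Cardinal.{u}, ∀ κ ∈ gspec c, κ ≤ b
    · obtain ⟨b, hb⟩ := hb
      exact ⟨b, Or.inl hb⟩
    · push Not at hb
      exact ⟨0, Or.inr hb⟩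
  choose b hb using h
  have hbdd : BddAbove (Set.range b) := bddAbove_of_small
  refine ⟨Order.succ (⨆ c, b c), ?_⟩
  rintro L K hK ⟨M, _, h1, h2, h3⟩ a
  obtain ⟨c, hc⟩ := exists_gcode (Λ := Λ) K (AEC.isLS_of_LS_le (hK.trans hΛ.ge))
  rcases hb c with h4 | h4
  · exfalso
    have h5 : #M ≤ b c := h4 _ ((hc _).2 ⟨M, inferInstance, h1, rfl, h3⟩)
    have h6 : b c < #M := (Order.lt_succ_of_le (le_ciSup hbdd c)).trans_le h2
    exact absurd h5 (not_le.2 h6)
  · obtain ⟨κ, h5, h6⟩ := h4 a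
    obtain ⟨M', i, h7, h8, h9⟩ := (hc κ).1 h5
    exact ⟨M', i, h7, by rw [h8]; exact h6.le, h9⟩

end Vale.Agent.P307.H479
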