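import Vale.Agent.P307.H479.GTop
import Vale.Agent.P307.Gw.Fam
import Vale.Agent.P307.H4.Top

/-! Theorem C: Q1 for classes with one large geometric member. -/

universe u

open FirstOrder Cardinal Set Function Language

namespace Vale.Agent.P307.H479

open Gw

/-- Q1 for the classes with one geometric member of large cardinality. -/
theorem q1_geometric (l : Cardinal.{u}) :
    ∃ μ : Cardinal.{u}, l ≤ μ ∧ ∀ (L : Language.{u, u}) (K : AEC L), K.LS ≤ l →
      (∃ (M : Type u) (_ : L.Structure M), K.mem M ∧ μ ≤ #M ∧ IsGeometric K M) →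
      (∃ κ : Cardinal.{u}, μ ≤ κ ∧ K.CategoricalIn κ) →
        ∀ κ' : Cardinal.{u}, μ ≤ κ' → K.CategoricalIn κ' ∧
          ∀ (M : Type u) [L.Structure M], K.mem M → #M = κ' → IsGeometric K M :=
  q1_geometric_of (fun F h => H4.eventually_of_homFamily F h)
    (fun K h1 h2 => exists_homFamily_of_large K h1 h2) l

end Vale.Agent.P307.H479
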