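import Vale.Agent.P307.H479.GCode
import Vale.Agent.P307.Gw.Hom
import Vale.Agent.P307.Ow.Top

/-! Categoricity transfer for classes with one large geometric member, from the two halves. -/

universe u

open FirstOrder Cardinal Set Function Language

namespace Vale.Agent.P307.H479

open Gw

theorem geometric_of_large {L : Language.{u, u}} {K : AEC L} {κ : Cardinal.{u}} (hκ : K.LS ≤ κ)
    (hcat : K.CategoricalIn κ)
    (hgeo : ∀ a : Cardinal.{u}, ∃ (M : Type u) (_ : L.Structure M), K.mem M ∧ a ≤ #M ∧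
      IsGeometric K M) (M : Type u) [L.Structure M] (hM : K.mem M) (hMκ : #M = κ) :
    IsGeometric K M := by
  have hK : K.IsLS K.LS := AEC.isLS_LS K
  obtain ⟨N, _, hN1, hN2, hN3⟩ := hgeo κ
  obtain ⟨A, hA⟩ := le_mk_iff_exists_set.1 hN2
  obtain ⟨S, hS1, hS2, hS3⟩ := hK.2.2 N hN1 A
  have hSκ : #S = κ := by
    apply le_antisymm
    · exact hS3.trans (add_le_of_le (hK.1.trans hκ) hA.le hκ)
    · rw [← hA]
      exact mk_le_mk_of_subset hS2
  have hB : IsGeometric K S := isGeometric_of_emb S.subtype (AEC.emb_subtype.2 hS1) hN3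
  obtain ⟨e⟩ := hcat.2 M S hM (K.mem_of_le _ hS1).1 hMκ hSκ
  exact isGeometric_of_emb e.toEmbedding (AEC.Emb.of_equiv e hM) hB

/-- Q1 for the classes with one geometric member of large cardinality, from the transfer for
families (`hE`) and the existence of families (`hF`). -/
theorem q1_geometric_of
    (hE : ∀ {L : Language.{u, u}} {K : AEC L} (_ : HomFamily K),
      (∀ χ : Cardinal.{u}, ∃ κ, χ ≤ κ ∧ K.CategoricalIn κ) →
        ∃ χ : Cardinal.{u}, ∀ κ, χ ≤ κ → K.CategoricalIn κ)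
    (hF : ∀ {L : Language.{u, u}} (K : AEC L),
      (∀ a : Cardinal.{u}, ∃ κ, a ≤ κ ∧ K.CategoricalIn κ) →
      (∀ a : Cardinal.{u}, ∃ (M : Type u) (_ : L.Structure M), K.mem M ∧ a ≤ #M ∧
        IsGeometric K M) → Nonempty (HomFamily K)) (l : Cardinal.{u}) :
    ∃ μ : Cardinal.{u}, l ≤ μ ∧ ∀ (L : Language.{u, u}) (K : AEC L), K.LS ≤ l →
      (∃ (M : Type u) (_ : L.Structure M), K.mem M ∧ μ ≤ #M ∧ IsGeometric K M) →
      (∃ κ : Cardinal.{u}, μ ≤ κ ∧ K.CategoricalIn κ) →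
        ∀ κ' : Cardinal.{u}, μ ≤ κ' → K.CategoricalIn κ' ∧
          ∀ (M : Type u) [L.Structure M], K.mem M → #M = κ' → IsGeometric K M := by
  obtain ⟨μ₀, hμ₀, hμ⟩ := H67.exists_threshold l
  obtain ⟨μ₁, hμ₁⟩ := exists_mu_geometric l
  obtain ⟨μ₂, hμ₂⟩ := Ow.exists_mu_cat l
  refine ⟨max μ₀ (max μ₁ μ₂), hμ₀.trans (le_max_left _ _), ?_⟩
  rintro L K hK ⟨M, i, h1, h2, h3⟩ ⟨κ, hκ, hcat⟩ κ' hκ'
  have hb := hμ₁ L K hK ⟨M, i, h1, ((le_max_left _ _).trans (le_max_right _ _)).trans h2, h3⟩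
  have hc := hμ₂ L K hK ⟨κ, ((le_max_right _ _).trans (le_max_right _ _)).trans hκ, hcat⟩
  obtain ⟨F⟩ := hF K hc hb
  have h4 := hμ L K hK (hE F hc) κ' ((le_max_left _ _).trans hκ')
  refine ⟨h4, fun M _ hM hMκ => geometric_of_large ?_ h4 hb M hM hMκ⟩
  exact (hK.trans hμ₀).trans ((le_max_left _ _).trans hκ')

end Vale.Agent.P307.H479
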