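import Vale.Agent.P307.H479.Defs
import Vale.Agent.P307.Bdl.B1
import Mathlib.ModelTheory.DirectLimit

/-! P307 (helper479): charts and the standard members. -/

universe u

open FirstOrder Cardinal Function

namespace Vale.Agent.P307.H479

variable {L : Language.{u, u}} {K : AEC L} {D : LocData L}

/-- `φ` is a chart of `M` at the tuple `a`. -/
def LocData.IsChart (D : LocData L) (K : AEC L) {M : Type u} [L.Structure M] {n : ℕ}
    (a : Fin n → M) (φ : D.F n ↪[L] M) : Prop :=
  K.le φ.toHom.range ∧ (∀ i, φ (D.pt n i) = a i) ∧ Set.range φ ∩ D.P M = Set.range a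

theorem coe_range' {A M : Type u} [L.Structure A] [L.Structure M] (φ : A ↪[L] M) :
    (φ.toHom.range : Set M) = Set.range φ := by
  rw [Language.Hom.range_coe]
  rfl

variable {M N : Type u} [L.Structure M] [L.Structure N]

theorem P_emb (h : D.IsGeometry K) {φ : M ↪[L] N} (hφ : K.Emb φ) (z : M) :
    φ z ∈ D.P N ↔ z ∈ D.P M := by
  rw [← h.P_iso φ.equivRange hφ.mem_left z, h.P_le _ hφ]
  rfl

/-- a strong embedding with the right values on the points is a chart -/
theorem isChart_of_emb (h : D.IsGeometry K) {n : ℕ} {a : Fin n → M} {φ : D.F n ↪[L] M}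
    (hφ : K.Emb φ) (ha : ∀ i, φ (D.pt n i) = a i) : D.IsChart K a φ := by
  refine ⟨hφ, ha, ?_⟩
  ext x
  constructor
  · rintro ⟨⟨z, rfl⟩, hx⟩
    have h1 := (P_emb h hφ z).1 hx
    rw [h.P_F n] at h1
    obtain ⟨i, rfl⟩ := h1
    exact ⟨i, (ha i).symm⟩
  · rintro ⟨i, rfl⟩
    refine ⟨⟨_, ha i⟩, ?_⟩
    rw [← ha i, P_emb h hφ, h.P_F n]
    exact ⟨i, rfl⟩

/-- the enumeration of a finite set -/
noncomputable def en {A : Type u} (s : Finset A) : Fin s.card → A := fun i => (s.equivFin.symm i).1

theorem en_inj {A : Type u} (s : Finset A) : Injective (en s) := fun _ _ hij =>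
  s.equivFin.symm.injective (Subtype.ext hij)

theorem en_mem {A : Type u} (s : Finset A) (i : Fin s.card) : en s i ∈ s :=
  (s.equivFin.symm i).2

theorem exists_factor {A : Type u} (s : Finset A) {n : ℕ} {a : Fin n → A} (ha : Injective a)
    (hs : ∀ i, a i ∈ s) : ∃ f : Fin n → Fin s.card, Injective f ∧ en s ∘ f = a := by
  refine ⟨fun i => s.equivFin ⟨a i, hs i⟩, ?_, ?_⟩
  · intro i j hij
    exact ha (Subtype.mk.inj (s.equivFin.injective hij))
  · funext i
    show (s.equivFin.symm (s.equivFin ⟨a i, hs i⟩)).1 = a i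
    rw [Equiv.symm_apply_apply]

/-- the inclusion of finite sets in terms of the enumerations -/
noncomputable def inc {A : Type u} {s t : Finset A} (h : s ⊆ t) : Fin s.card ↪ Fin t.card :=
  ⟨(exists_factor t (en_inj s) fun i => h (en_mem s i)).choose,
    (exists_factor t (en_inj s) fun i => h (en_mem s i)).choose_spec.1⟩

theorem en_inc {A : Type u} {s t : Finset A} (h : s ⊆ t) (i : Fin s.card) :
    en t (inc h i) = en s i :=
  congrFun (exists_factor t (en_inj s) fun i => h (en_mem s i)).choose_spec.2 i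

theorem en_ext {A : Type u} {t : Finset A} {m : ℕ} {f g : Fin m ↪ Fin t.card}
    (h : ∀ i, en t (f i) = en t (g i)) : f = g :=
  Function.Embedding.ext fun i => en_inj t (h i)

theorem St_refl (h : D.IsGeometry K) (n : ℕ) (x : D.F n) :
    D.St (Function.Embedding.refl (Fin n)) x = x := by
  apply (D.St (Function.Embedding.refl (Fin n))).injective
  have h1 := h.St_comp (Function.Embedding.refl (Fin n)) (Function.Embedding.refl (Fin n))
  exact DFunLike.congr_fun h1 x

theorem St_trans (h : D.IsGeometry K) {l m n : ℕ} (f : Fin l ↪ Fin m) (g : Fin m ↪ Fin n)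
    (x : D.F l) : D.St g (D.St f x) = D.St (f.trans g) x :=
  DFunLike.congr_fun (h.St_comp f g) x

/-- the standard members -/
theorem std (h : D.IsGeometry K) (X : Type u) : ∃ (M : Type u) (_ : L.Structure M) (p : X → M)
    (φ : ∀ n, (Fin n ↪ X) → (D.F n ↪[L] M)), K.mem M ∧ Injective p ∧ Set.range p = D.P M ∧
    (∀ n (a : Fin n ↪ X), D.IsChart K (p ∘ a) (φ n a)) ∧
    ∀ (m n : ℕ) (f : Fin m ↪ Fin n) (a : Fin n ↪ X),
      (φ n a).comp (D.St f) = φ m (f.trans a) := by
  classical
  let G : Finset X → Type u := fun s => D.F s.card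
  let f : ∀ s t : Finset X, s ≤ t → (G s ↪[L] G t) := fun s t hst => D.St (inc hst)
  have hds : DirectedSystem G (fun s t hst => f s t hst) := by
    refine ⟨fun s x => ?_, fun s t r hrt hts x => ?_⟩
    · have h1 : inc (le_refl s) = Function.Embedding.refl _ := en_ext fun i => en_inc _ i
      show D.St (inc (le_refl s)) x = x
      rw [h1]
      exact St_refl h _ x
    · show D.St (inc hts) (D.St (inc hrt) x) = D.St (inc (hrt.trans hts)) x
      rw [St_trans h]
      congr 2
      exact en_ext fun i => by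
        rw [Function.Embedding.trans_apply, en_inc, en_inc, en_inc]
  let M := Language.DirectLimit G f
  let φ₀ : ∀ s : Finset X, G s ↪[L] M := fun s => Language.DirectLimit.of L (Finset X) G f s
  have hφ₀ : ∀ {s t : Finset X} (hst : s ⊆ t) (x : G s), φ₀ t (D.St (inc hst) x) = φ₀ s x :=
    fun hst x => Language.DirectLimit.of_f (f := f) (hij := hst)
  have hex : ∀ z : M, ∃ s x, φ₀ s x = z := fun z => Language.DirectLimit.exists_of z
  -- membership
  have hmono : Monotone fun s : Finset X => (φ₀ s).toHom.range := by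
    rintro s t hst x ⟨y, rfl⟩
    exact ⟨D.St (inc hst) y, hφ₀ hst y⟩
  have hK := AEC.mem_of_finset_union (K := K) (fun s : Finset X => (φ₀ s).toHom.range) hmono (by
    intro s t hst
    have h1 := K.le_iso (φ₀ t).equivRange _ (h.St_strong (inc hst))
    convert h1 using 1
    ext x
    constructor
    · rintro ⟨y, hy⟩
      refine ⟨D.St (inc hst) y, ⟨y, rfl⟩, ?_⟩
      apply Subtype.ext
      have h2 : φ₀ s y = (x : M) := hy
      rw [← h2]
      exact hφ₀ hst y
    · rintro ⟨_, ⟨y, rfl⟩, rfl⟩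
      exact ⟨y, (hφ₀ hst y).symm⟩) (fun x => by
        obtain ⟨s, y, hy⟩ := hex x
        exact ⟨s, y, hy⟩)
  -- general coherence
  have hco : ∀ (s t : Finset X) {m : ℕ} (g : Fin m ↪ Fin s.card) (g' : Fin m ↪ Fin t.card),
      (∀ i, en s (g i) = en t (g' i)) → (φ₀ s).comp (D.St g) = (φ₀ t).comp (D.St g') := by
    intro s t m g g' hgg
    apply Language.Embedding.ext
    intro x
    show φ₀ s (D.St g x) = φ₀ t (D.St g' x)
    rw [← hφ₀ (Finset.subset_union_left : s ⊆ s ∪ t),
      ← hφ₀ (Finset.subset_union_right : t ⊆ s ∪ t), St_trans h, St_trans h]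
    congr 3
    exact en_ext fun i => by
      rw [Function.Embedding.trans_apply, Function.Embedding.trans_apply, en_inc, en_inc, hgg]
  -- the points
  have hpt : ∀ x : X, ∃ y : M, ∀ (s : Finset X) (i : Fin s.card), en s i = x →
      φ₀ s (D.pt _ i) = y := by
    intro x
    have hc : ({x} : Finset X).card = 1 := Finset.card_singleton x
    have h0 : 0 < ({x} : Finset X).card := by omega
    refine ⟨φ₀ {x} (D.pt _ ⟨0, h0⟩), ?_⟩
    intro s i hi
    have hxs : ({x} : Finset X) ⊆ s := by
      rw [Finset.singleton_subset_iff, ← hi]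
      exact en_mem s i
    rw [← hφ₀ hxs, h.St_pt]
    congr 2
    apply en_inj s
    rw [hi, en_inc]
    have := en_mem ({x} : Finset X) ⟨0, h0⟩
    exact (Finset.mem_singleton.1 this).symm
  choose p hp using hpt
  have hpinj : Injective p := by
    intro x y hxy
    obtain ⟨i, hi⟩ : ∃ i, en ({x, y} : Finset X) i = x := by
      obtain ⟨g, -, hg⟩ := exists_factor ({x, y} : Finset X) (a := fun _ : Fin 1 => x)
        (fun _ _ _ => Subsingleton.elim _ _) (fun _ => by simp)
      exact ⟨g 0, congrFun hg 0⟩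
    obtain ⟨j, hj⟩ : ∃ j, en ({x, y} : Finset X) j = y := by
      obtain ⟨g, -, hg⟩ := exists_factor ({x, y} : Finset X) (a := fun _ : Fin 1 => y)
        (fun _ _ _ => Subsingleton.elim _ _) (fun _ => by simp)
      exact ⟨g 0, congrFun hg 0⟩
    rw [← hp x _ i hi, ← hp y _ j hj] at hxy
    have h1 := h.pt_inj _ ((φ₀ _).injective hxy)
    exact hi.symm.trans ((congrArg (en ({x, y} : Finset X)) h1).trans hj)
  have hfac : ∀ {n : ℕ} (a : Fin n ↪ X), ∃ g : Fin n ↪ Fin (Finset.univ.image a).card,
      ∀ i, en _ (g i) = a i := by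
    intro n a
    obtain ⟨g, hg, hg2⟩ := exists_factor (Finset.univ.image a) a.injective
      (fun i => Finset.mem_image_of_mem _ (Finset.mem_univ i))
    exact ⟨⟨g, hg⟩, fun i => congrFun hg2 i⟩
  choose g hg using @hfac
  refine ⟨M, inferInstance, p, fun n a => (φ₀ _).comp (D.St (g a)), hK.1, hpinj, ?_,
    fun n a => ?_, fun m n f a => ?_⟩
  · ext z
    constructor
    · rintro ⟨x, rfl⟩
      obtain ⟨k, hk⟩ : ∃ i, en ({x} : Finset X) i = x := by
        obtain ⟨g, -, hg⟩ := exists_factor ({x} : Finset X) (a := fun _ : Fin 1 => x)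
          (fun _ _ _ => Subsingleton.elim _ _) (fun _ => by simp)
        exact ⟨g 0, congrFun hg 0⟩
      rw [← hp x _ k hk, P_emb h (hK.2 _), h.P_F]
      exact ⟨_, rfl⟩
    · intro hz
      obtain ⟨s, y, rfl⟩ := hex z
      rw [P_emb h (hK.2 s), h.P_F] at hz
      obtain ⟨i, rfl⟩ := hz
      exact ⟨en s i, (hp _ s i rfl).symm⟩
  · refine isChart_of_emb h (AEC.Emb.comp (hK.2 _) (h.St_strong _)) fun i => ?_
    show φ₀ _ (D.St (g a) (D.pt n i)) = p (a i)
    rw [h.St_pt]
    exact hp _ _ _ (hg a i)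
  · have h1 := hco (Finset.univ.image a) (Finset.univ.image (f.trans a)) (f.trans (g a))
      (g (f.trans a)) (fun i => by rw [hg (f.trans a), Function.Embedding.trans_apply, hg a]; rfl)
    refine Eq.trans ?_ h1
    rw [← h.St_comp]
    rfl

end Vale.Agent.P307.H479
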