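import Mathlib.SetTheory.Cardinal.Cofinality.Club
import Mathlib.SetTheory.Cardinal.Arithmetic
import Mathlib.Algebra.Group.Pi.Basic
import Mathlib.Algebra.Group.Hom.Basic
import Mathlib.Tactic.Group

/-! P307 (helper479): sections of twisted forms, basic facts and the room lemma. -/

universe u

open Cardinal Set Function

namespace Vale.Agent.P307.H479

/-- Total functions from tuples to groups. -/
abbrev Coch (G : ℕ → Type u) (X : Type u) : Type u := ∀ n, (Fin n → X) → G n

/-- Twisting data. -/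
abbrev Tw (G : ℕ → Type u) (X : Type u) : Type u :=
  ∀ n, (Fin n → X) → ∀ m, (Fin m → Fin n) → G m

/-- `a` is an injective tuple in `W`. -/
def Tup {X : Type u} (W : Set X) {n : ℕ} (a : Fin n → X) : Prop := Injective a ∧ ∀ i, a i ∈ W

theorem Tup.mono {X : Type u} {W V : Set X} (h : W ⊆ V) {n : ℕ} {a : Fin n → X} (ha : Tup W a) :
    Tup V a := ⟨ha.1, fun i => h (ha.2 i)⟩

theorem Tup.comp {X : Type u} {W : Set X} {n m : ℕ} {a : Fin n → X} (ha : Tup W a)
    {f : Fin m → Fin n} (hf : Injective f) : Tup W (a ∘ f) :=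
  ⟨ha.1.comp hf, fun i => ha.2 (f i)⟩

theorem Tup.map {X Y : Type u} {W : Set X} {V : Set Y} {e : X → Y} (he : InjOn e W)
    (hV : ∀ x ∈ W, e x ∈ V) {n : ℕ} {a : Fin n → X} (ha : Tup W a) : Tup V (e ∘ a) :=
  ⟨fun i j h => ha.1 (he (ha.2 i) (ha.2 j) h), fun i => hV _ (ha.2 i)⟩

/-- Two cochains agree on `W`. -/
def Agree {G : ℕ → Type u} {X : Type u} (W : Set X) (g g' : Coch G X) : Prop :=
  ∀ n (a : Fin n → X), Tup W a → g n a = g' n a

section

variable {G : ℕ → Type u} {X : Type u}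

theorem Agree.refl (W : Set X) (g : Coch G X) : Agree W g g := fun _ _ _ => rfl

theorem Agree.symm {W : Set X} {g g' : Coch G X} (h : Agree W g g') : Agree W g' g :=
  fun n a ha => (h n a ha).symm

theorem Agree.trans {W : Set X} {g g' g'' : Coch G X} (h : Agree W g g') (h' : Agree W g' g'') :
    Agree W g g'' := fun n a ha => (h n a ha).trans (h' n a ha)

theorem Agree.mono {W V : Set X} (hWV : W ⊆ V) {g g' : Coch G X} (h : Agree V g g') :
    Agree W g g' := fun n a ha => h n a (ha.mono hWV)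

variable [∀ n, Group (G n)] (res : ∀ m n : ℕ, (Fin m → Fin n) → G n →* G m)

/-- `g` is a section of the twisted form `c` over `W`. -/
def Sec (c : Tw G X) (W : Set X) (g : Coch G X) : Prop :=
  ∀ n (a : Fin n → X), Tup W a → ∀ m (f : Fin m → Fin n), Injective f →
    g m (a ∘ f) = c n a m f * res m n f (g n a)

/-- `g` is a section of the trivial form over `W`. -/
def Sec1 (W : Set X) (g : Coch G X) : Prop :=
  ∀ n (a : Fin n → X), Tup W a → ∀ m (f : Fin m → Fin n), Injective f →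
    g m (a ∘ f) = res m n f (g n a)

variable {res}

theorem Sec.mono {c : Tw G X} {W V : Set X} (h : W ⊆ V) {g : Coch G X} (hg : Sec res c V g) :
    Sec res c W g := fun n a ha => hg n a (ha.mono h)

theorem Sec1.mono {W V : Set X} (h : W ⊆ V) {g : Coch G X} (hg : Sec1 res V g) :
    Sec1 res W g := fun n a ha => hg n a (ha.mono h)

theorem Sec.congr {c : Tw G X} {W : Set X} {g g' : Coch G X} (hg : Sec res c W g)
    (h : Agree W g' g) : Sec res c W g' := by
  intro n a ha m f hf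
  rw [h m _ (ha.comp hf), h n a ha]
  exact hg n a ha m f hf

theorem Sec1.congr {W : Set X} {g g' : Coch G X} (hg : Sec1 res W g)
    (h : Agree W g' g) : Sec1 res W g' := by
  intro n a ha m f hf
  rw [h m _ (ha.comp hf), h n a ha]
  exact hg n a ha m f hf

theorem Sec.mul {c : Tw G X} {W : Set X} {u γ : Coch G X} (hu : Sec res c W u)
    (hγ : Sec1 res W γ) : Sec res c W (u * γ) := by
  intro n a ha m f hf
  show u m (a ∘ f) * γ m (a ∘ f) = c n a m f * res m n f (u n a * γ n a)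
  rw [hu n a ha m f hf, hγ n a ha m f hf, map_mul, mul_assoc]

theorem Sec.sub {c : Tw G X} {W : Set X} {u s : Coch G X} (hu : Sec res c W u)
    (hs : Sec res c W s) : Sec1 res W (u⁻¹ * s) := by
  intro n a ha m f hf
  show (u m (a ∘ f))⁻¹ * s m (a ∘ f) = res m n f ((u n a)⁻¹ * s n a)
  rw [hu n a ha m f hf, hs n a ha m f hf, map_mul, map_inv]
  group

theorem Sec1.mul {W : Set X} {u γ : Coch G X} (hu : Sec1 res W u)
    (hγ : Sec1 res W γ) : Sec1 res W (u * γ) := by
  intro n a ha m f hf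
  show u m (a ∘ f) * γ m (a ∘ f) = res m n f (u n a * γ n a)
  rw [hu n a ha m f hf, hγ n a ha m f hf, map_mul]

theorem Sec1.inv {W : Set X} {u : Coch G X} (hu : Sec1 res W u) : Sec1 res W u⁻¹ := by
  intro n a ha m f hf
  show (u m (a ∘ f))⁻¹ = res m n f (u n a)⁻¹
  rw [hu n a ha m f hf, map_inv]

theorem Sec1.one {W : Set X} : Sec1 res W (1 : Coch G X) := by
  intro n a ha m f hf
  show (1 : G m) = res m n f 1
  rw [map_one]

/-- pulling back along a map injective on `W` -/
def pull {X Y : Type u} (e : X → Y) (g : Coch G Y) : Coch G X := fun n a => g n (e ∘ a)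

theorem Sec1.pull {Y : Type u} {W : Set X} {V : Set Y} {e : X → Y} (he : InjOn e W)
    (hV : ∀ x ∈ W, e x ∈ V) {g : Coch G Y} (hg : Sec1 res V g) : Sec1 res W (pull e g) := by
  intro n a ha m f hf
  exact hg n (e ∘ a) (ha.map he hV) m f hf

/-- The room lemma. `V 0 ⊆ V 1 ⊆ …` are the bases; `Y` is the coloured part; `r i s` moves the
points of colour `i` into `V (s + 1) \ V s`. -/
theorem room_aux (col : X → ℕ) (T : Finset ℕ) (Y : Set X) (T₂ : Finset ℕ) :
    T₂ ⊆ T → ∀ V : ℕ → Set X, (∀ s, V s ⊆ V (s + 1)) → (∀ s, Disjoint (V s) Y) →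
    (∀ s, ∀ i ∈ T, ∃ r : X → X, InjOn r {x ∈ Y | col x = i} ∧
      ∀ x ∈ Y, col x = i → r x ∈ V (s + 1) \ V s) →
    ∀ γ : Coch G X,
    (∀ j ∈ T, Sec1 res (V T₂.card ∪ {x ∈ Y | col x ≠ j}) γ) →
    (∀ j ∈ T, j ∉ T₂ → Agree (V T₂.card ∪ {x ∈ Y | col x ≠ j}) γ 1) →
    ∃ δ : Coch G X, Sec1 res (V 0 ∪ Y) δ ∧ ∀ j ∈ T, Agree (V 0 ∪ {x ∈ Y | col x ≠ j}) δ γ := by
  classical
  induction T₂ using Finset.induction_on with
  | empty =>
    intro _ V hV hVY hr γ hγ h1
    refine ⟨1, Sec1.one, fun j hj => ?_⟩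
    exact (h1 j hj (Finset.notMem_empty j)).symm
  | insert i T₂ hi ih =>
    intro hT V hV hVY hr γ hγ h1
    rw [Finset.card_insert_of_notMem hi] at hγ h1
    have hiT : i ∈ T := hT (Finset.mem_insert_self _ _)
    obtain ⟨r, hrinj, hrV⟩ := hr T₂.card i hiT
    let ρ : X → X := fun x => if x ∈ Y ∧ col x = i then r x else x
    have hρ1 : ∀ x, x ∈ Y → col x = i → ρ x = r x := fun x h h' => if_pos ⟨h, h'⟩
    have hρ2 : ∀ x, ¬ (x ∈ Y ∧ col x = i) → ρ x = x := fun x h => if_neg h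
    have hVlt : ∀ x ∈ V T₂.card, ¬ (x ∈ Y ∧ col x = i) := fun x hx h =>
      (Set.disjoint_left.1 (hVY _)) hx h.1
    have hρinj : InjOn ρ (V T₂.card ∪ Y) := by
      intro x hx y hy hxy
      by_cases h : x ∈ Y ∧ col x = i <;> by_cases h' : y ∈ Y ∧ col y = i
      · rw [hρ1 x h.1 h.2, hρ1 y h'.1 h'.2] at hxy
        exact hrinj h h' hxy
      · rw [hρ1 x h.1 h.2, hρ2 y h'] at hxy
        have h2 := hrV x h.1 h.2
        rw [hxy] at h2
        rcases hy with hy | hy
        · exact absurd hy h2.2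
        · exact absurd hy ((Set.disjoint_left.1 (hVY _)) h2.1)
      · rw [hρ2 x h, hρ1 y h'.1 h'.2] at hxy
        have h2 := hrV y h'.1 h'.2
        rw [← hxy] at h2
        rcases hx with hx | hx
        · exact absurd hx h2.2
        · exact absurd hx ((Set.disjoint_left.1 (hVY _)) h2.1)
      · rw [hρ2 x h, hρ2 y h'] at hxy
        exact hxy
    have hρmap : ∀ x ∈ V T₂.card ∪ Y, ρ x ∈ V (T₂.card + 1) ∪ {x ∈ Y | col x ≠ i} := by
      intro x hx
      by_cases h : x ∈ Y ∧ col x = i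
      · rw [hρ1 x h.1 h.2]
        exact Or.inl (hrV x h.1 h.2).1
      · rw [hρ2 x h]
        rcases hx with hx | hx
        · exact Or.inl (hV _ hx)
        · exact Or.inr ⟨hx, fun h2 => h ⟨hx, h2⟩⟩
    let δ₁ : Coch G X := pull ρ γ
    have hδ₁ : Sec1 res (V T₂.card ∪ Y) δ₁ := Sec1.pull hρinj hρmap (hγ i hiT)
    have hδi : Agree (V T₂.card ∪ {x ∈ Y | col x ≠ i}) δ₁ γ := by
      intro n a ha
      show γ n (ρ ∘ a) = γ n a
      congr 1
      funext k
      refine hρ2 _ ?_
      rcases ha.2 k with h | h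
      · exact hVlt _ h
      · exact fun h2 => h.2 h2.2
    have hsubj : ∀ j, V T₂.card ∪ {x ∈ Y | col x ≠ j} ⊆ V T₂.card ∪ Y := fun j x hx =>
      hx.imp id fun h => h.1
    have hδj : ∀ j ∈ T, j ∉ insert i T₂ → Agree (V T₂.card ∪ {x ∈ Y | col x ≠ j}) δ₁ 1 := by
      intro j hj hj2 n a ha
      refine h1 j hj hj2 n (ρ ∘ a) (ha.map (hρinj.mono (hsubj j)) ?_)
      intro x hx
      rcases hρmap x (hsubj j hx) with h | h
      · exact Or.inl h
      · refine Or.inr ⟨h.1, fun h3 => ?_⟩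
        by_cases h4 : x ∈ Y ∧ col x = i
        · have h5 := (hrV x h4.1 h4.2).1
          rw [← hρ1 x h4.1 h4.2] at h5
          exact (Set.disjoint_left.1 (hVY _)) h5 h.1
        · rw [hρ2 x h4] at h3
          rcases hx with hx | hx
          · rw [hρ2 x h4] at h
            exact (Set.disjoint_left.1 (hVY _)) hx h.1
          · exact hx.2 h3
    let γ₁ : Coch G X := γ * δ₁⁻¹
    have hVle : ∀ j, V T₂.card ∪ {x ∈ Y | col x ≠ j} ⊆ V (T₂.card + 1) ∪ {x ∈ Y | col x ≠ j} :=
      fun j x hx => hx.imp (fun h => hV _ h) id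
    obtain ⟨δ₂, hδ₂, hδ₂'⟩ := ih ((Finset.subset_insert _ _).trans hT) V hV hVY hr γ₁
      (fun j hj => ((hγ j hj).mono (hVle j)).mul ((hδ₁.mono (hsubj j)).inv)) (by
        intro j hj hj2 n a ha
        show γ n a * (δ₁ n a)⁻¹ = 1
        by_cases hji : j = i
        · subst hji
          rw [hδi n a ha, mul_inv_cancel]
        · have h3 : j ∉ insert i T₂ := by
            rw [Finset.mem_insert]
            exact fun h => h.elim hji hj2
          rw [h1 j hj h3 n a (ha.mono (hVle j)), hδj j hj h3 n a ha]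
          show (1 : G n) * 1⁻¹ = 1
          rw [inv_one, mul_one])
    refine ⟨δ₂ * δ₁, hδ₂.mul (hδ₁.mono ?_), fun j hj n a ha => ?_⟩
    · have h3 : ∀ k, V 0 ⊆ V k := by
        intro k
        induction k with
        | zero => exact subset_rfl
        | succ k ihk => exact ihk.trans (hV k)
      exact Set.union_subset_union_left _ (h3 _)
    · show δ₂ n a * δ₁ n a = γ n a
      rw [hδ₂' j hj n a ha]
      show γ n a * (δ₁ n a)⁻¹ * δ₁ n a = γ n a
      rw [inv_mul_cancel_right]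

end

end Vale.Agent.P307.H479
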