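import Vale.Agent.P307.H479.Cat

/-! P307 (helper479): uniformization. -/

universe u

open FirstOrder Cardinal Function

namespace Vale.Agent.P307.H479

/-- Hanf number argument: if every member of a family of abstract elementary classes which is
categorical in arbitrarily large cardinals is categorical in all large cardinals, then Q1 holds for
the family. -/
theorem uniform_of (Φ : ∀ L : Language.{u, u}, AEC L → Prop)
    (h : ∀ (L : Language.{u, u}) (K : AEC L), Φ L K →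
      (∀ χ : Cardinal.{u}, ∃ κ, χ ≤ κ ∧ K.CategoricalIn κ) →
      ∃ χ : Cardinal.{u}, ∀ κ, χ ≤ κ → K.CategoricalIn κ) (l : Cardinal.{u}) :
    ∃ μ : Cardinal.{u}, l ≤ μ ∧ ∀ (L : Language.{u, u}) (K : AEC L), K.LS ≤ l → Φ L K →
      ∀ κ : Cardinal.{u}, μ ≤ κ → K.CategoricalIn κ →
        ∀ κ' : Cardinal.{u}, μ ≤ κ' → K.CategoricalIn κ' := by
  obtain ⟨Λ, hΛ⟩ : ∃ Λ : Type u, #Λ = l := ⟨l.out, mk_out l⟩
  have h1 : ∀ c : CodeTy Λ, ∃ χ : Cardinal.{u}, ∀ (L : Language.{u, u}) (K : AEC L), Φ L K →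
      (∀ κ, κ ∈ spec c ↔ K.CategoricalIn κ) →
      (∀ κ, K.CategoricalIn κ → κ < χ) ∨ ∀ κ, χ ≤ κ → K.CategoricalIn κ := by
    intro c
    by_cases hc : ∃ (L : Language.{u, u}) (K : AEC L), Φ L K ∧
        ∀ κ, κ ∈ spec c ↔ K.CategoricalIn κ
    · obtain ⟨L, K, hΦ, hK⟩ := hc
      by_cases hb : ∃ b : Cardinal.{u}, ∀ κ, K.CategoricalIn κ → κ < b
      · obtain ⟨b, hb⟩ := hb
        exact ⟨b, fun L' K' _ hK' => Or.inl fun κ hκ => hb κ ((hK κ).1 ((hK' κ).2 hκ))⟩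
      · push Not at hb
        obtain ⟨χ, hχ⟩ := h L K hΦ fun χ => by
          obtain ⟨κ, h2, h3⟩ := hb χ
          exact ⟨κ, h3, h2⟩
        exact ⟨χ, fun L' K' _ hK' => Or.inr fun κ hκ => (hK' κ).1 ((hK κ).2 (hχ κ hκ))⟩
    · exact ⟨0, fun L' K' hΦ' hK' => absurd ⟨L', K', hΦ', hK'⟩ hc⟩
  choose χ hχ using h1
  have hbdd : BddAbove (Set.range χ) := bddAbove_of_small
  refine ⟨max l (⨆ c, χ c), le_max_left _ _, ?_⟩
  intro L K hK hΦ κ hκ hcat κ' hκ'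
  have hLS : K.IsLS #Λ := AEC.isLS_of_LS_le (hK.trans hΛ.ge)
  obtain ⟨c, hc, -⟩ := exists_code K hLS
  rcases hχ c L K hΦ hc with h1 | h1
  · exact absurd (h1 κ hcat) (not_lt.2 (((le_ciSup hbdd c).trans (le_max_right _ _)).trans hκ))
  · exact h1 κ' (((le_ciSup hbdd c).trans (le_max_right _ _)).trans hκ')

end Vale.Agent.P307.H479
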